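import Vale.Agent.P275DL.Defs

/-!
# P275, block DL: calculus on finite covers of the plane
-/

set_option linter.unusedSectionVars false

open scoped Topology ContDiff ComplexOrder Polynomial ComplexConjugate
open Set Filter Metric MeasureTheory Bornology
open Vale.Agent.P281Z.Hm

noncomputable section

namespace Vale.Agent.P275DL

theorem cd_wd {f : ℂ → ℂ} {z : ℂ} (hf : ContDiffAt ℝ ∞ f z) : ContDiffAt ℝ ∞ (wd 1 f) z := by
  have h : ContDiffAt ℝ ∞ (fderiv ℝ f) z := hf.fderiv_right (m := ∞) (by simp)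
  unfold wd
  exact ((h.clm_apply contDiffAt_const).sub
    ((h.clm_apply contDiffAt_const).const_smul _)).const_smul _

theorem cd_wb {f : ℂ → ℂ} {z : ℂ} (hf : ContDiffAt ℝ ∞ f z) : ContDiffAt ℝ ∞ (wb 1 f) z := by
  have h : ContDiffAt ℝ ∞ (fderiv ℝ f) z := hf.fderiv_right (m := ∞) (by simp)
  unfold wb
  exact ((h.clm_apply contDiffAt_const).add
    ((h.clm_apply contDiffAt_const).const_smul _)).const_smul _

theorem cd_df {f : ℂ → ℂ} {z : ℂ} (hf : ContDiffAt ℝ ∞ f z) : DifferentiableAt ℝ f z :=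
  hf.differentiableAt (by simp)

theorem cd_two {f : ℂ → ℂ} {z : ℂ} (hf : ContDiffAt ℝ ∞ f z) : ContDiffAt ℝ 2 f z :=
  hf.of_le (WithTop.coe_le_coe.2 (le_top : (2 : ℕ∞) ≤ ⊤))

theorem an_cd {f : ℂ → ℂ} {z : ℂ} (hf : AnalyticAt ℂ f z) : ContDiffAt ℝ ∞ f z :=
  (hf.contDiffAt (n := ∞)).restrict_scalars ℝ

theorem ev_notMem (Z : Finset ℂ) {t : ℂ} (h : t ∉ Z) : ∀ᶠ s in 𝓝 t, s ∉ Z :=
  Z.finite_toSet.isClosed.isOpen_compl.mem_nhds h

theorem ev_notMem' (Z : Finset ℂ) (t : ℂ) : ∀ᶠ s in 𝓝[≠] t, s ∉ Z := by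
  classical
  have h := ev_notMem (Z.erase t) (t := t) (by simp)
  filter_upwards [nhdsWithin_le_nhds h, self_mem_nhdsWithin] with s h1 h2
  simpa [show s ≠ t from h2] using h1

theorem ae_notMem (Z : Finset ℂ) : ∀ᵐ s : ℂ, s ∉ Z :=
  Z.finite_toSet.countable.ae_notMem volume

namespace Cov

variable {S : Type} {X : Cov S} {p : S} {t t₀ : ℂ} {f g h u F : S → ℂ}

theorem mem_self (X : Cov S) (p : S) : p ∈ X.fib (X.ψ p) := (X.mem _ _).2 rfl

theorem ψ_of (h : p ∈ X.fib t) : X.ψ p = t := (X.mem _ _).1 h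

theorem fib_Z (h : t ∈ X.Z) : X.fib t = ∅ :=
  Finset.eq_empty_of_forall_notMem fun p hp => X.nz p (ψ_of hp ▸ h)

/-- the local structure over a point of the plane -/
theorem ev_fib (X : Cov S) (h : t₀ ∉ X.Z) : ∀ᶠ t in 𝓝 t₀, t ∉ X.Z ∧
    (∀ p ∈ X.fib t₀, X.ψ (X.σ p t) = t ∧ X.σ (X.σ p t) =ᶠ[𝓝 t] X.σ p) ∧
    BijOn (fun p => X.σ p t) (X.fib t₀) (X.fib t) := by
  refine (ev_notMem _ h).and (Eventually.and ?_ (X.bij t₀ h))
  exact (Finset.eventually_all _).2 fun p hp => ψ_of hp ▸ X.sec p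

theorem prod_ev {M : Type} [CommMonoid M] (X : Cov S) (h : t₀ ∉ X.Z) : ∀ᶠ t in 𝓝 t₀,
    ∀ g : S → M, ∏ q ∈ X.fib t, g q = ∏ p ∈ X.fib t₀, g (X.σ p t) := by
  filter_upwards [X.bij t₀ h] with t ht g
  exact (Finset.prod_nbij (fun p => X.σ p t) (fun _ ha => ht.mapsTo ha) ht.injOn ht.surjOn
    fun _ _ => rfl).symm

theorem sum_ev {M : Type} [AddCommMonoid M] (X : Cov S) (h : t₀ ∉ X.Z) : ∀ᶠ t in 𝓝 t₀,
    ∀ g : S → M, ∑ q ∈ X.fib t, g q = ∑ p ∈ X.fib t₀, g (X.σ p t) := by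
  filter_upwards [X.bij t₀ h] with t ht g
  exact (Finset.sum_nbij (fun p => X.σ p t) (fun _ ha => ht.mapsTo ha) ht.injOn ht.surjOn
    fun _ _ => rfl).symm

theorem comp_ev {M : Type} (X : Cov S) (p : S) : ∀ᶠ t in 𝓝 (X.ψ p), ∀ h : S → M,
    (fun s => h (X.σ (X.σ p t) s)) =ᶠ[𝓝 (X.ψ (X.σ p t))] fun s => h (X.σ p s) := by
  filter_upwards [X.sec p] with t ht h
  rw [ht.1]
  exact ht.2.mono fun s hs => congrArg h hs

theorem Sm.ev (hh : X.Sm h) (p : S) :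
    ∀ᶠ t in 𝓝 (X.ψ p), ContDiffAt ℝ ∞ (fun s => h (X.σ p s)) t := by
  filter_upwards [X.sec p, X.comp_ev (M := ℂ) p] with t ht h1
  have := (hh (X.σ p t)).congr_of_eventuallyEq (h1 h).symm
  rwa [ht.1] at this

theorem dz_ev (X : Cov S) (p : S) : ∀ᶠ t in 𝓝 (X.ψ p), ∀ h : S → ℂ,
    X.dz h (X.σ p t) = wd 1 (fun s => h (X.σ p s)) t ∧
    X.db h (X.σ p t) = wb 1 (fun s => h (X.σ p s)) t := by
  filter_upwards [X.sec p, X.comp_ev (M := ℂ) p] with t ht h1 h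
  exact ⟨by rw [dz, wd_congr (h1 h), ht.1], by rw [db, wb_congr (h1 h), ht.1]⟩

theorem Sm.dz (hh : X.Sm h) : X.Sm (X.dz h) := fun p =>
  (cd_wd (hh p)).congr_of_eventuallyEq ((X.dz_ev p).mono fun _ ht => (ht h).1)

theorem Sm.db (hh : X.Sm h) : X.Sm (X.db h) := fun p =>
  (cd_wb (hh p)).congr_of_eventuallyEq ((X.dz_ev p).mono fun _ ht => (ht h).2)

theorem Sm.df (hh : X.Sm h) (p : S) : DifferentiableAt ℝ (fun s => h (X.σ p s)) (X.ψ p) :=
  cd_df (hh p)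

theorem Sm.db_dz (hh : X.Sm h) : X.db (X.dz h) = X.dz (X.db h) := funext fun p => by
  have e1 : (fun s => X.dz h (X.σ p s)) =ᶠ[𝓝 (X.ψ p)] wd 1 fun s => h (X.σ p s) :=
    (X.dz_ev p).mono fun _ ht => (ht h).1
  have e2 : (fun s => X.db h (X.σ p s)) =ᶠ[𝓝 (X.ψ p)] wb 1 fun s => h (X.σ p s) :=
    (X.dz_ev p).mono fun _ ht => (ht h).2
  change wb 1 (fun s => X.dz h (X.σ p s)) _ = wd 1 (fun s => X.db h (X.σ p s)) _
  rw [wb_congr e1, wd_congr e2, wd_wb_comm (cd_two (hh p))]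

theorem Hl.sm (hu : X.Hl u) : X.Sm u := fun p => an_cd (hu p)

theorem Hl.db (hu : X.Hl u) (p : S) : X.db u p = 0 := wb_hol (hu p).differentiableAt 1

theorem sm_const (c : ℂ) : X.Sm fun _ => c := fun _ => contDiffAt_const

theorem Sm.add (hf : X.Sm f) (hg : X.Sm g) : X.Sm fun p => f p + g p := fun p => (hf p).add (hg p)

theorem Sm.sub (hf : X.Sm f) (hg : X.Sm g) : X.Sm fun p => f p - g p := fun p => (hf p).sub (hg p)

theorem Sm.neg (hf : X.Sm f) : X.Sm fun p => -f p := fun p => (hf p).neg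

theorem Sm.mul (hf : X.Sm f) (hg : X.Sm g) : X.Sm fun p => f p * g p := fun p => (hf p).mul (hg p)

theorem Sm.pow (hf : X.Sm f) (k : ℕ) : X.Sm fun p => f p ^ k := fun p => (hf p).pow k

theorem Sm.inv (hf : X.Sm f) (h0 : ∀ p, f p ≠ 0) : X.Sm fun p => (f p)⁻¹ := fun p =>
  (hf p).inv (h0 _)

theorem Sm.div (hf : X.Sm f) (hg : X.Sm g) (h0 : ∀ p, g p ≠ 0) : X.Sm fun p => f p / g p := by
  simpa only [div_eq_mul_inv] using hf.mul (hg.inv h0)

theorem Sm.conj (hf : X.Sm f) : X.Sm fun p => conj (f p) := fun p =>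
  (Complex.conjCLE.contDiff (n := ∞)).contDiffAt.comp _ (hf p)

theorem sm_sum {ι : Type} (s : Finset ι) {f : ι → S → ℂ} (hf : ∀ i ∈ s, X.Sm (f i)) :
    X.Sm fun p => ∑ i ∈ s, f i p := fun p => ContDiffAt.sum fun i hi => hf i hi p

/-- locally constant functions -/
theorem sm_lc (hf : ∀ p, ∀ᶠ t in 𝓝 (X.ψ p), f (X.σ p t) = f p) : X.Sm f := fun p =>
  contDiffAt_const.congr_of_eventuallyEq (hf p)

theorem dz_lc (hf : ∀ᶠ t in 𝓝 (X.ψ p), f (X.σ p t) = f p) : X.dz f p = 0 ∧ X.db f p = 0 :=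
  ⟨(wd_congr (g := fun _ => f p) hf 1).trans (wd_const _ _ _),
    (wb_congr (g := fun _ => f p) hf 1).trans (wb_const _ _ _)⟩

theorem dz_const (c : ℂ) (p : S) : X.dz (fun _ => c) p = 0 := wd_const _ _ _

theorem db_const (c : ℂ) (p : S) : X.db (fun _ => c) p = 0 := wb_const _ _ _

theorem Sm.dz_add (hf : X.Sm f) (hg : X.Sm g) (p : S) :
    X.dz (fun p => f p + g p) p = X.dz f p + X.dz g p := wd_add (hf.df p) (hg.df p) 1

theorem Sm.db_add (hf : X.Sm f) (hg : X.Sm g) (p : S) :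
    X.db (fun p => f p + g p) p = X.db f p + X.db g p := wb_add (hf.df p) (hg.df p) 1

theorem Sm.dz_sub (hf : X.Sm f) (hg : X.Sm g) (p : S) :
    X.dz (fun p => f p - g p) p = X.dz f p - X.dz g p := wd_sub (hf.df p) (hg.df p) 1

theorem Sm.db_sub (hf : X.Sm f) (hg : X.Sm g) (p : S) :
    X.db (fun p => f p - g p) p = X.db f p - X.db g p := wb_sub (hf.df p) (hg.df p) 1

theorem Sm.dz_mul (hf : X.Sm f) (hg : X.Sm g) (p : S) :
    X.dz (fun p => f p * g p) p = X.dz f p * g p + f p * X.dz g p := by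
  have := wd_cmul (hf.df p) (hg.df p) 1
  simp only [X.self] at this
  exact this.trans (by simp only [Cov.dz])

theorem Sm.db_mul (hf : X.Sm f) (hg : X.Sm g) (p : S) :
    X.db (fun p => f p * g p) p = X.db f p * g p + f p * X.db g p := by
  have := wb_cmul (hf.df p) (hg.df p) 1
  simp only [X.self] at this
  exact this.trans (by simp only [Cov.db])

theorem Sm.dz_conj (hf : X.Sm f) (p : S) : X.dz (fun p => conj (f p)) p = conj (X.db f p) :=
  wd_conj (hf.df p) 1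

theorem Sm.db_conj (hf : X.Sm f) (p : S) : X.db (fun p => conj (f p)) p = conj (X.dz f p) :=
  wb_conj (hf.df p) 1

theorem dz_sum {ι : Type} (s : Finset ι) {f : ι → S → ℂ} (hf : ∀ i ∈ s, X.Sm (f i)) (p : S) :
    X.dz (fun p => ∑ i ∈ s, f i p) p = ∑ i ∈ s, X.dz (f i) p :=
  wd_sum s (fun i hi => (hf i hi).df p) 1

theorem db_sum {ι : Type} (s : Finset ι) {f : ι → S → ℂ} (hf : ∀ i ∈ s, X.Sm (f i)) (p : S) :
    X.db (fun p => ∑ i ∈ s, f i p) p = ∑ i ∈ s, X.db (f i) p :=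
  wb_sum s (fun i hi => (hf i hi).df p) 1

/-- off the compact set the derivatives vanish -/
theorem dz_off {K : Set ℂ} {c : ℂ} (hK : IsClosed K) (h : ∀ p, X.ψ p ∉ K → f p = c)
    (hp : X.ψ p ∉ K) : X.dz f p = 0 ∧ X.db f p = 0 := by
  refine dz_lc ?_
  filter_upwards [X.sec p, hK.isOpen_compl.mem_nhds hp] with t h1 h2
  rw [h p hp, h _ (by rwa [h1.1])]

theorem Cs.dz {c : ℂ} (hf : X.Cs f c) : X.Cs (X.dz f) 0 := by
  obtain ⟨K, h1, h2, h3⟩ := hf
  exact ⟨K, h1, h2, fun p hp => (dz_off h1.isClosed h3 hp).1⟩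

theorem Cs.db {c : ℂ} (hf : X.Cs f c) : X.Cs (X.db f) 0 := by
  obtain ⟨K, h1, h2, h3⟩ := hf
  exact ⟨K, h1, h2, fun p hp => (dz_off h1.isClosed h3 hp).2⟩

theorem cs_const (c : ℂ) : X.Cs (fun _ => c) c := ⟨∅, isCompact_empty, by simp, fun _ _ => rfl⟩

theorem Cs.op {c d : ℂ} (hf : X.Cs f c) (hg : X.Cs g d) (Φ : S → ℂ → ℂ → ℂ) {e : ℂ}
    (he : ∀ p, Φ p c d = e) : X.Cs (fun p => Φ p (f p) (g p)) e := by
  obtain ⟨K, h1, h2, h3⟩ := hf
  obtain ⟨L, k1, k2, k3⟩ := hg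
  refine ⟨K ∪ L, h1.union k1, fun t ht => ht.elim (h2 t) (k2 t), fun p hp => ?_⟩
  rw [mem_union, not_or] at hp
  simp only [h3 p hp.1, k3 p hp.2, he]

theorem Cs.op1 {c : ℂ} (hf : X.Cs f c) (Φ : S → ℂ → ℂ) {e : ℂ} (he : ∀ p, Φ p c = e) :
    X.Cs (fun p => Φ p (f p)) e := hf.op hf (fun p a _ => Φ p a) he

theorem cs_sum {ι : Type} (s : Finset ι) {f : ι → S → ℂ} (hf : ∀ i ∈ s, X.Cs (f i) 0) :
    X.Cs (fun p => ∑ i ∈ s, f i p) 0 := by
  classical
  induction s using Finset.induction_on with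
  | empty => simpa using cs_const (X := X) 0
  | insert a s ha ih =>
    simp only [Finset.sum_insert ha]
    exact (hf a (by simp)).op (ih fun i hi => hf i (by simp [hi])) (fun _ x y => x + y)
      fun _ => add_zero _

/-- the trace of a smooth function is smooth -/
theorem Sm.tr (hg : X.Sm g) (h : t ∉ X.Z) : ContDiffAt ℝ ∞ (fun s => ∑ p ∈ X.fib s, g p) t := by
  have : ContDiffAt ℝ ∞ (fun s => ∑ p ∈ X.fib t, g (X.σ p s)) t :=
    ContDiffAt.sum fun p hp => ψ_of hp ▸ hg p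
  exact this.congr_of_eventuallyEq ((X.sum_ev h).mono fun s hs => hs g)

theorem Sm.wd_tr (hg : X.Sm g) (h : t ∉ X.Z) :
    wd 1 (fun s => ∑ p ∈ X.fib s, g p) t = ∑ p ∈ X.fib t, X.dz g p := by
  rw [wd_congr (g := fun s => ∑ p ∈ X.fib t, g (X.σ p s)) ((X.sum_ev h).mono fun s hs => hs g),
    wd_sum _ fun p hp => ψ_of hp ▸ hg.df p]
  exact Finset.sum_congr rfl fun p hp => by rw [Cov.dz, ψ_of hp]

theorem Sm.wb_tr (hg : X.Sm g) (h : t ∉ X.Z) :
    wb 1 (fun s => ∑ p ∈ X.fib s, g p) t = ∑ p ∈ X.fib t, X.db g p := by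
  rw [wb_congr (g := fun s => ∑ p ∈ X.fib t, g (X.σ p s)) ((X.sum_ev h).mono fun s hs => hs g),
    wb_sum _ fun p hp => ψ_of hp ▸ hg.df p]
  exact Finset.sum_congr rfl fun p hp => by rw [Cov.db, ψ_of hp]

theorem tr_off {K : Set ℂ} (h : ∀ p, X.ψ p ∉ K → g p = 0) (ht : t ∉ K) :
    ∑ p ∈ X.fib t, g p = 0 := Finset.sum_eq_zero fun p hp => h p (by rwa [ψ_of hp])

theorem Sm.tr_cd (hg : X.Sm g) (hc : X.Cs g 0) : ContDiff ℝ ∞ fun s => ∑ p ∈ X.fib s, g p := by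
  obtain ⟨K, h1, h2, h3⟩ := hc
  refine contDiff_iff_contDiffAt.2 fun t => ?_
  by_cases ht : t ∈ K
  · exact hg.tr (h2 t ht)
  · exact (contDiffAt_const (c := 0)).congr_of_eventuallyEq
      (eventually_of_mem (h1.isClosed.isOpen_compl.mem_nhds ht) fun s hs => tr_off h3 hs)

theorem Cs.tr_cs (hc : X.Cs g 0) : HasCompactSupport fun s => ∑ p ∈ X.fib s, g p := by
  obtain ⟨K, h1, -, h3⟩ := hc
  exact HasCompactSupport.intro h1 fun t ht => tr_off h3 ht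

/-- integrable functions -/
def In (X : Cov S) (g : S → ℂ) : Prop := Integrable fun s => ∑ p ∈ X.fib s, g p

theorem Sm.int (hg : X.Sm g) (hc : X.Cs g 0) : X.In g :=
  (hg.tr_cd hc).continuous.integrable_of_hasCompactSupport hc.tr_cs

theorem In.add (hf : X.In f) (hg : X.In g) : X.In fun p => f p + g p := by
  have e : (fun s => ∑ p ∈ X.fib s, (f p + g p)) =
      (fun s => ∑ p ∈ X.fib s, f p) + fun s => ∑ p ∈ X.fib s, g p :=
    funext fun _ => Finset.sum_add_distrib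
  rw [In, e]
  exact Integrable.add hf hg

theorem int_add (hf : X.In f) (hg : X.In g) : X.int (fun p => f p + g p) = X.int f + X.int g := by
  simp only [int, Finset.sum_add_distrib]
  exact integral_add hf hg

theorem int_sub (hf : X.In f) (hg : X.In g) : X.int (fun p => f p - g p) = X.int f - X.int g := by
  simp only [int, Finset.sum_sub_distrib]
  exact integral_sub hf hg

theorem int_mul (c : ℂ) (f : S → ℂ) : X.int (fun p => c * f p) = c * X.int f := by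
  simp only [int, ← Finset.mul_sum]
  exact integral_const_mul c _

theorem int_neg (f : S → ℂ) : X.int (fun p => -f p) = -X.int f := by
  simp only [int, Finset.sum_neg_distrib]
  exact integral_neg _

theorem int_zero : X.int (fun _ => 0) = 0 := by simp [int]

theorem int_sum {ι : Type} (s : Finset ι) {f : ι → S → ℂ} (hf : ∀ i ∈ s, X.In (f i)) :
    X.int (fun p => ∑ i ∈ s, f i p) = ∑ i ∈ s, X.int (f i) := by
  simp only [int]
  rw [← integral_finsetSum s hf]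
  exact integral_congr_ae (Eventually.of_forall fun t => Finset.sum_comm)

end Cov

end Vale.Agent.P275DL
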