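import Vale.Agent.P275GC.Defs
import Vale.Agent.P275ST.Geo

/-!
# P275, block DL: loops on spectral covers and the delta inequality. Definitions and blocks.
-/

set_option linter.unusedSectionVars false

open scoped Topology ContDiff ComplexOrder Polynomial
open Set Filter Metric MeasureTheory Bornology
open Vale.Agent.P281Z.Hm (wd wb)
open Vale.Agent.P275GC (At)
open Vale.Agent.P275ST (Pol IsZar ZarLE)

noncomputable section

namespace Vale.Agent.P275DL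

/-- the bilinear extension of a pairing -/
def ex2 {L : Type} (Q : L → L → ℂ) : (L →₀ ℂ) →ₗ[ℂ] (L →₀ ℂ) →ₗ[ℂ] ℂ :=
  Finsupp.linearCombination ℂ fun l => Finsupp.linearCombination ℂ (Q l)

/-- the pairing has an isotropic subspace of dimension at least `s` without kernel -/
def Rk {L : Type} (Q : L → L → ℂ) (s : ℕ) : Prop := ∃ W : Submodule ℂ (L →₀ ℂ),
  s ≤ Module.finrank ℂ W ∧ (∀ v ∈ W, ∀ w ∈ W, ex2 Q v w = 0) ∧ ∀ v ∈ W, v ≠ 0 → ∃ w, ex2 Q v w ≠ 0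

/-- the monic polynomial with lower coefficients `c` -/
def mon (n : ℕ) (c : ℕ → ℂ) : ℂ[X] :=
  Polynomial.X ^ n + ∑ k ∈ Finset.range n, Polynomial.C (c k) * Polynomial.X ^ k

/-- the number of distinct roots -/
def nr (p : ℂ[X]) : ℕ := p.roots.toFinset.card

/-! ### loops on the curve -/

/-- near `z` the roots of `P` are given by distinct holomorphic branches -/
def Br (P : ℂ → ℂ[X]) (z : ℂ) {M : ℕ} (y : Fin M → ℂ → ℂ) (m : Fin M → ℕ) : Prop :=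
  (∀ j, AnalyticAt ℂ (y j) z ∧ 0 < m j) ∧ (Function.Injective fun j => y j z) ∧
    ∀ᶠ w in 𝓝 z, P w = ∏ j, (Polynomial.X - Polynomial.C (y j w)) ^ m j

/-- A smooth function `F` with values in `ℂ^*` on the spectral cover with equation `P i z`
(chart `i`, coordinate `z`, eigenvalue `y dz`), equal to `1` near the branch points, of norm `1`;
`a dz + b dz̄` is its logarithmic differential. -/
structure Loop {C : Type} [TopologicalSpace C] (A : At C) (P : Fin A.N → ℂ → ℂ[X]) where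
  F : Fin A.N → ℂ → ℂ → ℂ
  a : Fin A.N → ℂ → ℂ → ℂ
  b : Fin A.N → ℂ → ℂ → ℂ
  ne : ∀ i z y, F i z y ≠ 0
  tr : ∀ i j, ∀ z ∈ A.O i j, ∀ y, F i z (A.d i j z * y) = F j (A.tr i j z) y
  det : ∀ i, ∀ z ∈ ball (0 : ℂ) A.R, ((P i z).roots.map (F i z)).prod = 1
  loc : ∀ i, ∀ z ∈ ball (0 : ℂ) A.R,
    (∀ᶠ w in 𝓝 z, ∀ y, F i w y = 1 ∧ a i w y = 0 ∧ b i w y = 0) ∨
    ∃ (M : ℕ) (y : Fin M → ℂ → ℂ) (m : Fin M → ℕ), Br (P i) z y m ∧ ∀ j, ∀ᶠ w in 𝓝 z,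
      ContDiffAt ℝ ∞ (fun x => F i x (y j x)) w ∧
      wd 1 (fun x => F i x (y j x)) w = F i w (y j w) * a i w (y j w) ∧
      wb 1 (fun x => F i x (y j x)) w = F i w (y j w) * b i w (y j w)

/-- the pairing `∫ tr (dlog F ∧ dlog G)`, up to the constant `dz ∧ dz̄ = -2 i dx ∧ dy` -/
def Loop.Q {C : Type} [TopologicalSpace C] {A : At C} {P : Fin A.N → ℂ → ℂ[X]} (F G : Loop A P) :
    ℂ := A.int fun i z =>
  ((P i z).roots.map fun y => F.a i z y * G.b i z y - F.b i z y * G.a i z y).sum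

/-- a linear system of trace free characteristic polynomials on the curve -/
structure Sys {C : Type} [TopologicalSpace C] (A : At C) (V : Type) [AddCommGroup V] [Module ℂ V]
    (n : ℕ) where
  c : ℕ → V →ₗ[ℂ] Fin A.N → ℂ → ℂ
  hl : ∀ k v, A.Hl (c k v)
  sec : ∀ k < n, ∀ v, A.Sec (fun i j z => A.d i j z ^ (n - k)) (c k v)
  tr0 : ∀ v, c (n - 1) v = 0
  inj : ∀ v, (∀ k < n, ∀ i, ∀ z ∈ ball (0 : ℂ) A.R, c k v i z = 0) → v = 0

/-- the characteristic polynomial -/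
def Sys.P {C : Type} [TopologicalSpace C] {A : At C} {V : Type} [AddCommGroup V] [Module ℂ V]
    {n : ℕ} (D : Sys A V n) (v : V) (i : Fin A.N) (z : ℂ) : ℂ[X] := mon n fun k => D.c k v i z

/-- a meromorphic function with exactly one pole -/
def Mer {C : Type} [TopologicalSpace C] (A : At C) : Prop := ∃ (p : C) (f : C → ℂ),
  (∀ i, ∀ z ∈ ball (0 : ℂ) A.R, (A.e i).symm z ≠ p → AnalyticAt ℂ (fun w => f ((A.e i).symm w)) z) ∧
  Tendsto f (𝓝[≠] p) (cobounded ℂ)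

/-- **The delta inequality.** -/
def DELTA : Prop := ∀ (C : Type) [TopologicalSpace C] [T2Space C] [ConnectedSpace C] (A : At C)
  (V : Type) [AddCommGroup V] [Module ℂ V] [FiniteDimensional ℂ V] (n : ℕ) (D : Sys A V n),
  0 < n → Mer A → ∀ t : ℕ, ∃ Z : Set V, ZarLE Z (t - 1) ∧ ∀ v ∉ Z, Rk (Loop.Q (P := D.P v)) t

/-! ### finite covers of the plane minus a finite set -/

/-- a finite cover of `ℂ ∖ Z`, given by germs `σ p` of sections through its points `p` -/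
structure Cov (S : Type) where
  Z : Finset ℂ
  ψ : S → ℂ
  fib : ℂ → Finset S
  σ : S → ℂ → S
  mem : ∀ p t, p ∈ fib t ↔ ψ p = t
  nz : ∀ p, ψ p ∉ Z
  self : ∀ p, σ p (ψ p) = p
  sec : ∀ p, ∀ᶠ t in 𝓝 (ψ p), ψ (σ p t) = t ∧ σ (σ p t) =ᶠ[𝓝 t] σ p
  bij : ∀ t₀ ∉ Z, ∀ᶠ t in 𝓝 t₀, BijOn (fun p => σ p t) (fib t₀) (fib t)
  bd : ∃ e, ∀ t, (fib t).card ≤ e

namespace Cov

variable {S : Type} (X : Cov S)

/-- smooth functions -/
def Sm (h : S → ℂ) : Prop := ∀ p, ContDiffAt ℝ ∞ (fun t => h (X.σ p t)) (X.ψ p)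

/-- holomorphic functions -/
def Hl (u : S → ℂ) : Prop := ∀ p, AnalyticAt ℂ (fun t => u (X.σ p t)) (X.ψ p)

/-- `∂ h / ∂ t` -/
def dz (h : S → ℂ) (p : S) : ℂ := wd 1 (fun t => h (X.σ p t)) (X.ψ p)

/-- `∂ h / ∂ t̄` -/
def db (h : S → ℂ) (p : S) : ℂ := wb 1 (fun t => h (X.σ p t)) (X.ψ p)

/-- the integral over the cover -/
def int (g : S → ℂ) : ℂ := ∫ t, ∑ p ∈ X.fib t, g p

/-- `h = c` off a compact set -/
def Cs (h : S → ℂ) (c : ℂ) : Prop :=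
  ∃ K : Set ℂ, IsCompact K ∧ (∀ t ∈ K, t ∉ X.Z) ∧ ∀ p, X.ψ p ∉ K → h p = c

/-- growth of a `k`-differential `u dt^k` at the punctures and at infinity -/
def Gk (κ : ℝ) (k : ℕ) (u : S → ℂ) : Prop := ∃ B : ℝ,
  (∀ t₀ ∈ X.Z, ∀ᶠ t in 𝓝[≠] t₀, ∀ p ∈ X.fib t, ‖u p‖ ≤ B * (‖t - t₀‖ ^ (κ - 1)) ^ k) ∧
  ∀ᶠ t in cobounded ℂ, ∀ p ∈ X.fib t, ‖u p‖ ≤ B * (‖t‖ ^ (-1 - κ)) ^ k

/-- growth of a differential without poles on the compactified cover -/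
def Gr (u : S → ℂ) : Prop := ∃ κ, 0 < κ ∧ X.Gk κ 1 u

/-- smooth functions with values in `ℂ^*` which are `1` off a compact set -/
def Lo (F : S → ℂ) : Prop := X.Sm F ∧ (∀ p, F p ≠ 0) ∧ X.Cs F 1

end Cov

open Classical in
/-- multiplicities `m` and an intermediate cover `ρ` of total degree `n` -/
structure Wt {S : Type} (X : Cov S) (T : Type) (n : ℕ) where
  ρ : S → T
  m : S → ℕ
  pos : ∀ p, 0 < m p
  lc : ∀ p, ∀ᶠ t in 𝓝 (X.ψ p), m (X.σ p t) = m p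
  cmp : ∀ p q, X.ψ p = X.ψ q → ∀ᶠ t in 𝓝 (X.ψ p), ρ (X.σ p t) = ρ (X.σ q t) ↔ ρ p = ρ q
  sum : ∀ p, ∑ q ∈ X.fib (X.ψ p) with ρ q = ρ p, m q = n

namespace Wt

variable {S T : Type} {X : Cov S} {n : ℕ} (w : Wt X T n)

open Classical in
/-- the points over the point `x` of the intermediate cover, over `t` -/
def cl (t : ℂ) (x : T) : Finset S := (X.fib t).filter fun q => w.ρ q = x

/-- loops of norm one -/
def Lp : Type := {F : S → ℂ // X.Lo F ∧ ∀ t x, ∏ q ∈ w.cl t x, F q ^ w.m q = 1}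

/-- the pairing -/
def Q (F G : w.Lp) : ℂ := X.int fun p =>
  w.m p * (X.dz F.1 p / F.1 p * (X.db G.1 p / G.1 p) - X.db F.1 p / F.1 p * (X.dz G.1 p / G.1 p))

/-- a space of trace free holomorphic differentials -/
structure Fm {W : Type} [AddCommGroup W] [Module ℂ W] (u : W →ₗ[ℂ] S → ℂ) : Prop where
  inj : Function.Injective u
  hl : ∀ v, X.Hl (u v)
  gr : ∀ v, X.Gr (u v)
  tr : ∀ v t x, ∑ q ∈ w.cl t x, (w.m q : ℂ) * u v q = 0

end Wt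

/-- a linear system of trace free characteristic polynomials on a cover of the plane -/
structure SD {S : Type} (X : Cov S) (V : Type) [AddCommGroup V] [Module ℂ V] (n : ℕ) where
  c : ℕ → V →ₗ[ℂ] S → ℂ
  hl : ∀ k v, X.Hl (c k v)
  tr0 : ∀ v, c (n - 1) v = 0
  inj : ∀ v, (∀ k < n, c k v = 0) → v = 0
  gr : ∃ κ, 0 < κ ∧ ∀ k < n, ∀ v, X.Gk κ (n - k) (c k v)

namespace SD

variable {S V : Type} {X : Cov S} [AddCommGroup V] [Module ℂ V] {n : ℕ} (D : SD X V n)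

/-- the characteristic polynomial -/
def P (v : V) (x : S) : ℂ[X] := mon n fun k => D.c k v x

/-- its norm to the plane -/
def Nm (v : V) (t : ℂ) : ℂ[X] := ∏ x ∈ X.fib t, D.P v x

/-- `Y` is the reduced spectral cover of `v` -/
structure Spec (v : V) {S' : Type} (Y : Cov S') (w : Wt Y S n) (y : S' → ℂ) : Prop where
  sub : X.Z ⊆ Y.Z
  ψ : ∀ p, X.ψ (w.ρ p) = Y.ψ p
  σ : ∀ p, ∀ᶠ t in 𝓝 (Y.ψ p), w.ρ (Y.σ p t) = X.σ (w.ρ p) t
  hl : Y.Hl y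
  inj : ∀ p q, w.ρ p = w.ρ q → y p = y q → p = q
  eq : ∀ x, X.ψ x ∉ Y.Z →
    D.P v x = ∏ p ∈ w.cl (X.ψ x) x, (Polynomial.X - Polynomial.C (y p)) ^ w.m p

end SD

/-- `q` is a discriminant for the family `φ` whose zeros do not merge -/
structure SD.Disc {S V E : Type} {X : Cov S} [AddCommGroup V] [Module ℂ V] {n : ℕ} (D : SD X V n)
    [NormedAddCommGroup E] [NormedSpace ℂ E] (φ : E → V) (q : E → ℂ[X]) (δ N : ℕ) : Prop where
  an : ∀ k, AnalyticAt ℂ (fun T => (q T).coeff k) 0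
  ev : ∀ᶠ T in 𝓝 (0 : E), (q T).Monic ∧ (q T).natDegree = δ ∧ nr (q T) = nr (q 0) ∧
    (∀ t ∈ X.Z, (q T).eval t = 0) ∧ ∀ t, (q T).eval t ≠ 0 → nr (D.Nm (φ T) t) = N

/-! ### blocks -/

/-- a closed form which pairs to zero with all loops is exact -/
def EXA : Prop := ∀ (S : Type) (X : Cov S) (a b : S → ℂ), X.Sm a → X.Sm b → X.db a = X.dz b →
  (∀ F, X.Lo F → X.int (fun p => X.dz F p / F p * b p - X.db F p / F p * a p) = 0) →
  ∃ h, X.Sm h ∧ X.dz h = a ∧ X.db h = b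

/-- no residues -/
def RES : Prop := ∀ (S : Type) (X : Cov S) (h u : S → ℂ), X.Sm h → (∃ B, ∀ p, ‖h p‖ ≤ B) →
  X.Hl u → X.Gr u → (X.Cs (fun p => X.db h p * u p) 0 → X.int (fun p => X.db h p * u p) = 0) ∧
    ((∀ p, 0 ≤ X.db h p * u p) → ∀ p, X.db h p * u p = 0)

/-- primitives are bounded -/
def BND : Prop := ∀ (S : Type) (X : Cov S) (h : S → ℂ), X.Sm h → X.Gr (X.dz h) → X.Gr (X.db h) →
  ∃ B, ∀ p, ‖h p‖ ≤ B

/-- the rank bound -/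
def RANK : Prop := ∀ (S T : Type) (X : Cov S) (n : ℕ) (w : Wt X T n) (W : Type) [AddCommGroup W]
  [Module ℂ W] [FiniteDimensional ℂ W] (u : W →ₗ[ℂ] S → ℂ), w.Fm u → Rk w.Q (Module.finrank ℂ W)

/-- local branches of the roots -/
def LOC : Prop := ∀ (E : Type) [NormedAddCommGroup E] [NormedSpace ℂ E] [CompleteSpace E]
  (P : E → ℂ[X]) (e₀ : E) (n : ℕ), (∀ k, AnalyticAt ℂ (fun e => (P e).coeff k) e₀) →
  (∀ᶠ e in 𝓝 e₀, (P e).Monic ∧ (P e).natDegree = n ∧ nr (P e) ≤ nr (P e₀)) →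
  ∃ y : ℂ → E → ℂ, (∀ r, AnalyticAt ℂ (y r) e₀ ∧ y r e₀ = r) ∧ ∀ᶠ e in 𝓝 e₀,
    P e = ∏ r ∈ (P e₀).roots.toFinset,
      (Polynomial.X - Polynomial.C (y r e)) ^ (P e₀).rootMultiplicity r

/-- branches over a disc -/
def LIFT : Prop := ∀ (P : ℂ → ℂ[X]) (ρ : ℝ) (n N : ℕ) (r : ℂ),
  (∀ τ ∈ ball (0 : ℂ) ρ, (∀ k, AnalyticAt ℂ (fun e => (P e).coeff k) τ) ∧ (P τ).Monic ∧
    (P τ).natDegree = n ∧ nr (P τ) = N) → (P 0).IsRoot r →
  ∃ y : ℂ → ℂ, DifferentiableOn ℂ y (ball 0 ρ) ∧ y 0 = r ∧ ∀ τ ∈ ball (0 : ℂ) ρ, (P τ).IsRoot (y τ)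

/-- generic degree and generic number of roots -/
def GEN : Prop := ∀ (R : Type) [CommRing R] [IsDomain R] [CharZero R] (Q : R[X]), Q ≠ 0 →
  ∃ g : R, g ≠ 0 ∧ ∃ N, ∀ φ : R →+* ℂ, φ g ≠ 0 →
    (Q.map φ).natDegree = Q.natDegree ∧ Q.map φ ≠ 0 ∧ nr (Q.map φ) = N

/-- evaluation of a polynomial function at a point -/
def evP {V : Type} [AddCommGroup V] [Module ℂ V] {Y : Set V} (a : Y) : Pol Y →+* ℂ :=
  (Pi.evalRingHom (fun _ : Y => ℂ) a).comp (Pol Y).val.toRingHom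

/-- the norm is polynomial in the parameters, up to a power of the equation of the punctures -/
def POLY : Prop := ∀ (S V : Type) (X : Cov S) [AddCommGroup V] [Module ℂ V] (n : ℕ) (D : SD X V n)
  (Y : Set V), ∃ (M : ℕ) (Q : (Pol Y)[X][X]), ∀ (a : Y), ∀ t ∉ X.Z,
    Q.map (Polynomial.eval₂RingHom (evP a) t) =
      Polynomial.C ((∏ s ∈ X.Z, (t - s)) ^ M) * D.Nm a t

/-- generic equisingularity -/
def GENS : Prop := ∀ (S V : Type) (X : Cov S) [NormedAddCommGroup V] [NormedSpace ℂ V]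
  [FiniteDimensional ℂ V] (n : ℕ) (D : SD X V n) (Y : Set V), IsDomain (Pol Y) →
  ∃ G : Pol (univ : Set V), (∃ y ∈ Y, G.1 ⟨y, trivial⟩ ≠ 0) ∧
    ∀ (d : ℕ) (φ : (Fin d → ℂ) → V), AnalyticAt ℂ φ 0 → (∀ᶠ T in 𝓝 0, φ T ∈ Y) →
      G.1 ⟨φ 0, trivial⟩ ≠ 0 → ∃ q δ N, D.Disc φ q δ N

/-- the differentials of an equisingular family -/
def FORM : Prop := ∀ (S V : Type) (X : Cov S) [NormedAddCommGroup V] [NormedSpace ℂ V]
  [FiniteDimensional ℂ V] (n : ℕ) (D : SD X V n) (d : ℕ) (φ : (Fin d → ℂ) → V)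
  (q : (Fin d → ℂ) → ℂ[X]) (δ N : ℕ), 0 < n → AnalyticAt ℂ φ 0 →
  Function.Injective (fderiv ℂ φ 0) → D.Disc φ q δ N →
  ∃ (S' : Type) (Y : Cov S') (w : Wt Y S n) (y : S' → ℂ) (u : (Fin d → ℂ) →ₗ[ℂ] S' → ℂ),
    D.Spec (φ 0) Y w y ∧ w.Fm u

/-- dimension of a Zariski closure -/
def ZDIM : Prop := ∀ (V : Type) [NormedAddCommGroup V] [NormedSpace ℂ V] [FiniteDimensional ℂ V]
  (B : Set V) (t : ℕ), (∀ Y : Set V, IsZar Y → IsDomain (Pol Y) →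
    ∃ G : Pol (univ : Set V), (∃ y ∈ Y, G.1 ⟨y, trivial⟩ ≠ 0) ∧
      ∀ (d : ℕ) (φ : (Fin d → ℂ) → V), AnalyticAt ℂ φ 0 → (∀ᶠ T in 𝓝 0, φ T ∈ Y) →
        G.1 ⟨φ 0, trivial⟩ ≠ 0 → Function.Injective (fderiv ℂ φ 0) → φ 0 ∈ B → d < t) →
  ∃ Z : Set V, ZarLE Z (t - 1) ∧ B ⊆ Z

/-- passage from the curve to the plane and back -/
def PLT : Prop := ∀ (C : Type) [TopologicalSpace C] [T2Space C] [ConnectedSpace C] (A : At C)
  (V : Type) [AddCommGroup V] [Module ℂ V] (n : ℕ) (D : Sys A V n), 0 < n → Mer A →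
  ∃ (S : Type) (X : Cov S) (D' : SD X V n), ∀ (v : V) (S' : Type) (Y : Cov S') (w : Wt Y S n)
    (y : S' → ℂ), D'.Spec v Y w y → ∃ ι : w.Lp → Loop A (D.P v), ∀ F G, (ι F).Q (ι G) = w.Q F G

end Vale.Agent.P275DL
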