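import Vale.Agent.P275DL.Defs

/-!
# P275, block DL: growth of the differentials of an equisingular family
-/

open scoped Topology Polynomial
open Filter Bornology

namespace Vale.Agent.P275DL

/-- the derivative of a root in the direction `v`, at the point `x`, is at most `b` -/
def SD.Db {S V E : Type} {X : Cov S} [AddCommGroup V] [Module ℂ V] {n : ℕ} (D : SD X V n)
    [NormedAddCommGroup E] [NormedSpace ℂ E] (φ : E → V) (v : E) (x : S) (b : ℝ) : Prop :=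
  ∀ y : ℂ → ℂ, AnalyticAt ℂ y 0 → (∀ᶠ τ in 𝓝 (0 : ℂ), (D.P (φ (τ • v)) x).IsRoot (y τ)) →
    ‖deriv y 0‖ ≤ b

/-- growth at the punctures and at infinity -/
def GRW : Prop := ∀ (S V : Type) (X : Cov S) [NormedAddCommGroup V] [NormedSpace ℂ V]
  [FiniteDimensional ℂ V] (n : ℕ) (D : SD X V n) (d : ℕ) (φ : (Fin d → ℂ) → V)
  (q : (Fin d → ℂ) → ℂ[X]) (δ N : ℕ), 0 < n → AnalyticAt ℂ φ 0 → D.Disc φ q δ N →
  ∀ v : Fin d → ℂ, ∃ κ B : ℝ, 0 < κ ∧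
    (∀ t₀ ∈ (q 0).roots.toFinset, ∀ᶠ t in 𝓝[≠] t₀, ∀ x ∈ X.fib t,
      D.Db φ v x (B * ‖t - t₀‖ ^ (κ - 1))) ∧
    ∀ᶠ t in cobounded ℂ, ∀ x ∈ X.fib t, D.Db φ v x (B * ‖t‖ ^ (-1 - κ))

end Vale.Agent.P275DL
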