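import Vale.Agent.P275DL.Bas
import Vale.Agent.P275CT.Weyl

/-!
# P275, block DL: Poincaré lemma and the local weak solutions in the plane
-/

set_option linter.unusedSectionVars false

open scoped Topology ContDiff ComplexConjugate Real
open Set Filter Metric MeasureTheory Complex
open Vale.Agent.P281Z.Hm Vale.Agent.P275CT

noncomputable section

namespace Vale.Agent.P275DL

theorem cd_one {f : ℂ → ℂ} (hf : ContDiff ℝ ∞ f) : ContDiff ℝ 1 f := hf.of_le (by simp)

/-- Poincaré lemma on a disc, with a cut-off -/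
theorem poinc {a b : ℂ → ℂ} {c : ℂ} {r R : ℝ} (hr : 0 < r) (hR : r < R)
    (ha : ∀ t ∈ ball c R, ContDiffAt ℝ ∞ a t) (hb : ∀ t ∈ ball c R, ContDiffAt ℝ ∞ b t)
    (hc : ∀ t ∈ ball c R, wb 1 a t = wd 1 b t) : ∃ h : ℂ → ℂ, ContDiff ℝ ∞ h ∧
      HasCompactSupport h ∧ ∀ t ∈ ball c r, wd 1 h t = a t ∧ wb 1 h t = b t := by
  have hw : ∀ t ∈ ball c R, ContDiffAt ℝ ∞ (fun t => LL (a t, b t)) t := fun t ht =>
    (LL (F := ℂ)).contDiff.contDiffAt.comp t ((ha t ht).prodMk (hb t ht))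
  obtain ⟨f, hf⟩ : ∃ f : ℂ → ℂ, ∀ t ∈ ball c R, HasFDerivAt f (LL (a t, b t)) t :=
    (convex_ball c R).exists_forall_hasFDerivAt_of_fderiv_symmetric isOpen_ball
    (fun t ht => ((hw t ht).differentiableAt (by simp)).differentiableWithinAt) fun t ht x y => by
      have h1 := (LL (F := ℂ)).hasFDerivAt.comp t
        ((cd_df (ha t ht)).hasFDerivAt.prodMk (cd_df (hb t ht)).hasFDerivAt)
      have h2 : fderiv ℝ (fun t => LL (a t, b t)) t = _ := h1.fderiv
      rw [h2, fd_LL a t, fd_LL b t]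
      simp only [ContinuousLinearMap.comp_apply, ContinuousLinearMap.prod_apply, LL_apply,
        smul_eq_mul]
      linear_combination (y * conj x - x * conj y) * hc t ht
  have hs : ContDiffOn ℝ ∞ f (ball c R) := by
    refine (contDiffOn_infty_iff_fderiv_of_isOpen isOpen_ball).2
      ⟨fun t ht => (hf t ht).differentiableAt.differentiableWithinAt, ?_⟩
    exact ContDiffOn.congr (fun t ht => (hw t ht).contDiffWithinAt) fun t ht => (hf t ht).fderiv
  obtain ⟨η, h1, h2, -, h4, h5⟩ := ex_cutC c hr (show r < (r + R) / 2 by linarith)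
  refine ⟨fun z => η z • f z, cd_cut isOpen_ball h1 (h5 ▸ closedBall_subset_ball (by linarith)) hs,
    cs_cut h2 f, fun t ht => ?_⟩
  have e : (fun z => η z • f z) =ᶠ[𝓝 t] f :=
    eventually_of_mem (isOpen_ball.mem_nhds ht) fun z hz => by
      simp [h4 z (ball_subset_closedBall hz)]
  have ht' := hf t (ball_subset_ball hR.le ht)
  exact ⟨(wd_congr e 1).trans (dz_of ht'), (wb_congr e 1).trans (db_of ht')⟩

/-- `f` has order `k` at `s`, up to a smooth unit -/
def PW (k : ℤ) (f : ℂ → ℂ) (s : ℂ) : Prop := ∃ G : ℂ → ℂ, ContDiffAt ℝ ∞ G s ∧ G s ≠ 0 ∧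
  ∀ᶠ t in 𝓝[≠] s, f t = (t - s) ^ k * G t

theorem PW.congr {k : ℤ} {f g : ℂ → ℂ} {s : ℂ} (h : PW k f s) (e : g =ᶠ[𝓝[≠] s] f) : PW k g s := by
  obtain ⟨G, h1, h2, h3⟩ := h
  exact ⟨G, h1, h2, (h3.and e).mono fun t ht => ht.2.trans ht.1⟩

theorem pw_sm {f : ℂ → ℂ} {s : ℂ} (h : ContDiffAt ℝ ∞ f s) (h0 : f s ≠ 0) : PW 0 f s :=
  ⟨f, h, h0, Eventually.of_forall fun t => by simp⟩

theorem PW.mul {k l : ℤ} {f g : ℂ → ℂ} {s : ℂ} (hf : PW k f s) (hg : PW l g s) :
    PW (k + l) (fun t => f t * g t) s := by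
  obtain ⟨G, h1, h2, h3⟩ := hf
  obtain ⟨H, k1, k2, k3⟩ := hg
  refine ⟨fun t => G t * H t, h1.mul k1, mul_ne_zero h2 k2, ?_⟩
  filter_upwards [h3, k3, self_mem_nhdsWithin] with t e1 e2 ht
  rw [e1, e2, zpow_add₀ (sub_ne_zero.2 ht)]
  ring

theorem PW.inv {k : ℤ} {f : ℂ → ℂ} {s : ℂ} (hf : PW k f s) : PW (-k) (fun t => (f t)⁻¹) s := by
  obtain ⟨G, h1, h2, h3⟩ := hf
  refine ⟨fun t => (G t)⁻¹, h1.inv h2, inv_ne_zero h2, h3.mono fun t e1 => ?_⟩
  simp only [e1, mul_inv, zpow_neg]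

open Classical in
theorem pw_lin (c s : ℂ) : PW (if s = c then 1 else 0) (fun t => t - c) s := by
  split_ifs with h
  · exact ⟨fun _ => 1, contDiffAt_const, one_ne_zero, Eventually.of_forall fun t => by simp [h]⟩
  · exact pw_sm (contDiffAt_id.sub contDiffAt_const) (sub_ne_zero.2 h)

/-- the logarithmic derivatives near the singular point -/
theorem log_ev {k : ℤ} {f G : ℂ → ℂ} {s : ℂ} (h1 : ContDiffAt ℝ ∞ G s) (h2 : G s ≠ 0)
    (h3 : ∀ᶠ t in 𝓝[≠] s, f t = (t - s) ^ k * G t) : ∀ᶠ t in 𝓝[≠] s,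
      DifferentiableAt ℝ f t ∧ f t ≠ 0 ∧ wd 1 f t / f t = (t - s)⁻¹ * k + wd 1 G t / G t ∧
      wb 1 f t / f t = wb 1 G t / G t := by
  have e1 : ∀ᶠ t in 𝓝 s, ContDiffAt ℝ 2 G t := (cd_two h1).eventually (by simp)
  have e2 : ∀ᶠ t in 𝓝 s, G t ≠ 0 := h1.continuousAt.eventually_ne h2
  filter_upwards [eventually_eventually_nhdsWithin.2 h3, nhdsWithin_le_nhds e1,
    nhdsWithin_le_nhds e2, self_mem_nhdsWithin] with t a1 a2 a3 a4
  rw [nhdsWithin_eq_nhds.2 (isOpen_compl_singleton.mem_nhds a4)] at a1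
  have hs : t - s ≠ 0 := sub_ne_zero.2 a4
  have d1 : HasDerivAt (fun t => (t - s) ^ k) (k * (t - s) ^ (k - 1)) t := by
    have := (hasDerivAt_zpow k (t - s) (Or.inl hs)).comp t ((hasDerivAt_id t).sub_const s)
    rw [mul_one] at this
    exact this
  have d2 : DifferentiableAt ℝ (fun t => (t - s) ^ k) t :=
    d1.differentiableAt.restrictScalars ℝ
  have d3 : DifferentiableAt ℝ G t := a2.differentiableAt (by simp)
  have e : f =ᶠ[𝓝 t] fun t => (t - s) ^ k * G t := a1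
  have z1 : (t - s) ^ k ≠ 0 := zpow_ne_zero _ hs
  refine ⟨(d2.mul d3).congr_of_eventuallyEq e, by rw [e.eq_of_nhds]; exact mul_ne_zero z1 a3, ?_, ?_⟩
  · rw [wd_congr e, e.eq_of_nhds, wd_cmul d2 d3, wd_hol d1.differentiableAt,
      d1.hasFDerivAt.fderiv, zpow_sub_one₀ hs]
    simp only [ContinuousLinearMap.toSpanSingleton_apply, smul_eq_mul]
    field_simp
  · rw [wb_congr e, e.eq_of_nhds, wb_cmul d2 d3, wb_hol d1.differentiableAt]
    field_simp
    ring

theorem loc_int {J c e : ℂ → ℂ} {s : ℂ} (hc : ∀ᶠ t in 𝓝 s, ContinuousAt c t)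
    (he : ∀ᶠ t in 𝓝 s, ContinuousAt e t) (h : ∀ᶠ t in 𝓝[≠] s, J t = (t - s)⁻¹ * c t + e t) :
    IntegrableAtFilter J (𝓝 s) := by
  rw [eventually_nhdsWithin_iff] at h
  obtain ⟨r, hr, hb⟩ := nhds_basis_closedBall.eventually_iff.1 (hc.and (he.and h))
  refine ⟨closedBall s r, closedBall_mem_nhds s hr, ?_⟩
  have hK := isCompact_closedBall s r
  have i1 : IntegrableOn (fun t : ℂ => (t - s)⁻¹) (closedBall s r) := by
    obtain ⟨η, h1, h2, -, h4, -⟩ := ex_cutC s hr (lt_add_one r)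
    have := (kn_inv.int' h1.continuous h2 s).neg.integrableOn (s := closedBall s r)
    refine this.congr_fun (fun t ht => ?_) measurableSet_closedBall
    simp only [Pi.neg_apply, h4 t ht, smul_eq_mul, mul_one]
    rw [← inv_neg, neg_sub]
  have i2 := (i1.mul_continuousOn (fun t ht => (hb ht).1.continuousWithinAt) hK).add
    (ContinuousOn.integrableOn_compact hK fun t ht => (hb ht).2.1.continuousWithinAt)
  refine i2.congr_fun_ae ?_
  filter_upwards [ae_restrict_mem measurableSet_closedBall,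
    ae_restrict_of_ae ((countable_singleton s).ae_notMem volume)] with t h1 h2
  exact ((hb h1).2.2 h2).symm

theorem pomp {h : ℂ → ℂ} (hh : ContDiff ℝ ∞ h) (hc : HasCompactSupport h) (s : ℂ) :
    Integrable (fun t => (t - s)⁻¹ * wb 1 h t) ∧ ∫ t, (t - s)⁻¹ * wb 1 h t = -(π * h s) := by
  have e : (fun t => (t - s)⁻¹ * wb 1 h t) = fun t => -((s - t)⁻¹ • wb 1 h t) := funext fun t => by
    rw [smul_eq_mul, ← neg_mul, ← inv_neg, neg_sub]
  have h1 := congrFun (cT_db (cd_one hh) hc) s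
  rw [cT_eq] at h1
  simp only [cK_eq] at h1
  rw [e]
  refine ⟨(kn_inv.int' (db_cont (cd_one hh)) (db_cs hc) s).neg, ?_⟩
  rw [integral_neg, ← h1, smul_eq_mul, mul_inv_cancel_left₀ pi_ne]

theorem stokes {l h : ℂ → ℂ} (hl : ContDiff ℝ ∞ l) (hh : ContDiff ℝ ∞ h)
    (hc : HasCompactSupport h) :
    Integrable (fun t => wd 1 l t * wb 1 h t - wb 1 l t * wd 1 h t) ∧
      ∫ t, (wd 1 l t * wb 1 h t - wb 1 l t * wd 1 h t) = 0 := by
  have s1 : ContDiff ℝ ∞ fun t => l t * wb 1 h t :=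
    hl.mul (contDiff_iff_contDiffAt.2 fun t => cd_wb hh.contDiffAt)
  have s2 : ContDiff ℝ ∞ fun t => l t * wd 1 h t :=
    hl.mul (contDiff_iff_contDiffAt.2 fun t => cd_wd hh.contDiffAt)
  have c1 : HasCompactSupport fun t => l t * wb 1 h t := (db_cs hc).mul_left
  have c2 : HasCompactSupport fun t => l t * wd 1 h t := (dz_cs hc).mul_left
  have e : (fun t => wd 1 l t * wb 1 h t - wb 1 l t * wd 1 h t) = fun t =>
      wd 1 (fun t => l t * wb 1 h t) t - wb 1 (fun t => l t * wd 1 h t) t := funext fun t => by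
    rw [wd_cmul (cd_df hl.contDiffAt) (cd_df (cd_wb hh.contDiffAt)),
      wb_cmul (cd_df hl.contDiffAt) (cd_df (cd_wd hh.contDiffAt)),
      wd_wb_comm (cd_two hh.contDiffAt)]
    ring
  have i1 := (dz_cont (cd_one s1)).integrable_of_hasCompactSupport (μ := volume) (dz_cs c1)
  have i2 := (db_cont (cd_one s2)).integrable_of_hasCompactSupport (μ := volume) (db_cs c2)
  rw [e]
  exact ⟨i1.sub i2, by
    rw [integral_sub i1 i2, int_dz (cd_one s1) c1, int_db (cd_one s2) c2, sub_zero]⟩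

open Classical in
/-- the weak solution with a pole at `c` and a zero at `s` -/
theorem seg {c s : ℂ} {r : ℝ} (hs : s ∈ ball c r) : ∃ φ : ℂ → ℂ,
    (∀ t ∉ closedBall c (3 * r), φ t = 1) ∧
    (∀ t, PW ((if t = s then 1 else 0) - if t = c then 1 else 0) φ t) ∧
    ∀ h : ℂ → ℂ, ContDiff ℝ ∞ h → HasCompactSupport h →
      ∫ t, (wd 1 φ t / φ t * wb 1 h t - wb 1 φ t / φ t * wd 1 h t) = -(π * (h s - h c)) := by
  have hr : 0 < r := pos_of_mem_ball hs
  rw [mem_ball, dist_eq_norm] at hs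
  obtain ⟨χ, h1, -, -, h4, h5⟩ := ex_cutC c (show 0 < 2 * r by linarith)
    (show 2 * r < 3 * r by linarith)
  have hne : ∀ t, r < ‖t - c‖ → t - c ≠ 0 := fun t ht h => by
    rw [h, norm_zero] at ht; linarith
  have hsl : ∀ t, r < ‖t - c‖ → 1 + -((s - c) / (t - c)) ∈ slitPlane := fun t ht =>
    mem_slitPlane_of_norm_lt_one (by
      rw [norm_neg, norm_div, div_lt_one (by linarith)]; linarith)
  set l : ℂ → ℂ := fun t => -((1 - χ t) * log (1 + -((s - c) / (t - c)))) with hl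
  have sl : ContDiff ℝ ∞ l := contDiff_iff_contDiffAt.2 fun t => by
    by_cases ht : r < ‖t - c‖
    · have a1 : AnalyticAt ℂ (fun t => log (1 + -((s - c) / (t - c)))) t :=
        (analyticAt_const.add (analyticAt_const.div (analyticAt_id.sub analyticAt_const)
          (hne t ht)).neg).clog (hsl t ht)
      exact ((contDiffAt_const.sub h1.contDiffAt).mul (an_cd a1)).neg
    · have : t ∈ ball c (2 * r) := by rw [mem_ball, dist_eq_norm]; linarith
      refine (contDiffAt_const (c := 0)).congr_of_eventuallyEq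
        (eventually_of_mem (isOpen_ball.mem_nhds this) fun z hz => ?_)
      simp [hl, h4 z (ball_subset_closedBall hz)]
  have se : ContDiff ℝ ∞ fun t => exp (l t) := sl.cexp
  refine ⟨fun t => (t - s) * (t - c)⁻¹ * exp (l t), fun t ht => ?_, fun t => ?_, fun h hh hc => ?_⟩
  · have h0 : χ t = 0 := image_eq_zero_of_notMem_tsupport (h5 ▸ ht)
    rw [mem_closedBall, dist_eq_norm, not_le] at ht
    have a1 := hne t (by linarith)
    have a2 := slitPlane_ne_zero (hsl t (by linarith))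
    have a3 : (t - s) * (t - c)⁻¹ = 1 + -((s - c) / (t - c)) := by field_simp; ring
    simp only [hl, h0, sub_zero, one_mul]
    rw [exp_neg, exp_log a2, a3, mul_inv_cancel₀ a2]
  · simpa only [add_zero, sub_eq_add_neg] using ((pw_lin s t).mul (pw_lin c t).inv).mul
      (pw_sm se.contDiffAt (exp_ne_zero _))
  · have e : ∀ᵐ t : ℂ, wd 1 (fun t => (t - s) * (t - c)⁻¹ * exp (l t)) t /
          ((t - s) * (t - c)⁻¹ * exp (l t)) * wb 1 h t -
        wb 1 (fun t => (t - s) * (t - c)⁻¹ * exp (l t)) t / ((t - s) * (t - c)⁻¹ * exp (l t)) *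
          wd 1 h t = ((t - s)⁻¹ * wb 1 h t - (t - c)⁻¹ * wb 1 h t) +
          (wd 1 l t * wb 1 h t - wb 1 l t * wd 1 h t) := by
      filter_upwards [(countable_singleton s).ae_notMem volume,
        (countable_singleton c).ae_notMem volume] with t t1 t2
      have a1 : t - s ≠ 0 := sub_ne_zero.2 t1
      have a2 : t - c ≠ 0 := sub_ne_zero.2 t2
      have d1 : HasDerivAt (fun t => (t - s) * (t - c)⁻¹)
          (1 * (t - c)⁻¹ + (t - s) * (-1 / (t - c) ^ 2)) t :=
        ((hasDerivAt_id t).sub_const s).mul (((hasDerivAt_id t).sub_const c).inv a2)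
      have d2 := d1.differentiableAt.restrictScalars ℝ
      have d3 := cd_df (sl.contDiffAt (x := t))
      have d4 : HasFDerivAt (fun t => exp (l t)) (exp (l t) • fderiv ℝ l t) t := d3.hasFDerivAt.cexp
      have w1 : wd 1 (fun t => exp (l t)) t = exp (l t) * wd 1 l t := by
        simp only [wd, d4.fderiv, smul_apply, smul_eq_mul]; ring
      have w2 : wb 1 (fun t => exp (l t)) t = exp (l t) * wb 1 l t := by
        simp only [wb, d4.fderiv, smul_apply, smul_eq_mul]; ring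
      have a3 := exp_ne_zero (l t)
      rw [wd_cmul d2 d4.differentiableAt, wb_cmul d2 d4.differentiableAt, w1, w2,
        wb_hol d1.differentiableAt, wd_hol d1.differentiableAt, d1.hasFDerivAt.fderiv]
      simp only [ContinuousLinearMap.toSpanSingleton_apply, smul_eq_mul]
      field_simp
      ring
    obtain ⟨i1, e1⟩ := pomp hh hc s
    obtain ⟨i2, e2⟩ := pomp hh hc c
    obtain ⟨i3, e3⟩ := stokes sl hh hc
    have i4 : Integrable fun t => (t - s)⁻¹ * wb 1 h t - (t - c)⁻¹ * wb 1 h t := i1.sub i2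
    rw [integral_congr_ae e, integral_add i4 i3, integral_sub i1 i2, e1, e2, e3]
    ring

end Vale.Agent.P275DL
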