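import Vale.Agent.P275DL.Exa1

/-!
# P275, block DL: a closed form which pairs to zero with all loops is exact
-/

set_option linter.unusedSectionVars false

open scoped Topology ContDiff ComplexConjugate Real
open Set Filter Metric MeasureTheory Complex
open Vale.Agent.P281Z.Hm Vale.Agent.P275CT

noncomputable section

namespace Vale.Agent.P275DL

namespace Cov

variable {S : Type} {X : Cov S} {a b F G : S → ℂ} {D E : S → ℤ}

theorem ae_of_ev {P : S → Prop} (h : ∀ p, ∀ᶠ t in 𝓝[≠] (X.ψ p), P (X.σ p t)) :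
    ∀ᵐ t, ∀ q ∈ X.fib t, P q := by
  have h1 : {t | ∀ q ∈ X.fib t, P q} ∈ codiscreteWithin (X.Z : Set ℂ)ᶜ := by
    refine mem_codiscreteWithin_iff_forall_mem_nhdsNE.2 fun t₀ ht => mem_of_superset ?_
      subset_union_left
    have h2 : ∀ᶠ t in 𝓝[≠] t₀, ∀ p ∈ X.fib t₀, P (X.σ p t) :=
      (Finset.eventually_all _).2 fun p hp => ψ_of hp ▸ h p
    filter_upwards [h2, nhdsWithin_le_nhds (X.bij t₀ ht)] with t a1 a2 q hq
    obtain ⟨p, hp, rfl⟩ := a2.surjOn hq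
    exact a1 p hp
  have hm : MeasurableSet (X.Z : Set ℂ)ᶜ := X.Z.measurableSet.compl
  have h3 := (ae_restrict_iff' hm).1 (ae_restrict_le_codiscreteWithin (μ := volume) hm h1)
  filter_upwards [h3, ae_notMem X.Z] with t a1 a2 using a1 a2

/-- weak solutions -/
def Wk (X : Cov S) (D : S → ℤ) (F : S → ℂ) : Prop :=
  (∀ p, PW (D p) (fun t => F (X.σ p t)) (X.ψ p)) ∧ X.Cs F 1

/-- the integrand -/
def J (X : Cov S) (a b F : S → ℂ) (p : S) : ℂ := X.dz F p / F p * b p - X.db F p / F p * a p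

/-- good points -/
def Gd (X : Cov S) (F : S → ℂ) (q : S) : Prop :=
  DifferentiableAt ℝ (fun t => F (X.σ q t)) (X.ψ q) ∧ F q ≠ 0

theorem wk_ev {p : S} {k : ℤ} {g : ℂ → ℂ} (h1 : ContDiffAt ℝ ∞ g (X.ψ p)) (h2 : g (X.ψ p) ≠ 0)
    (h3 : ∀ᶠ t in 𝓝[≠] (X.ψ p), F (X.σ p t) = (t - X.ψ p) ^ k * g t) :
    ∀ᶠ t in 𝓝[≠] (X.ψ p), X.Gd F (X.σ p t) ∧
      X.dz F (X.σ p t) / F (X.σ p t) = (t - X.ψ p)⁻¹ * k + wd 1 g t / g t ∧
      X.db F (X.σ p t) / F (X.σ p t) = wb 1 g t / g t := by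
  filter_upwards [log_ev h1 h2 h3, nhdsWithin_le_nhds (X.sec p), nhdsWithin_le_nhds (X.dz_ev p),
    nhdsWithin_le_nhds (X.comp_ev (M := ℂ) p)] with t a1 a2 a3 a4
  refine ⟨⟨DifferentiableAt.congr_of_eventuallyEq ?_ (a4 F), a1.2.1⟩, ?_, ?_⟩
  · rw [a2.1]; exact a1.1
  · rw [(a3 F).1]; exact a1.2.2.1
  · rw [(a3 F).2]; exact a1.2.2.2

theorem Wk.gd (h : X.Wk D F) : ∀ᵐ t, ∀ q ∈ X.fib t, X.Gd F q := ae_of_ev fun p => by
  obtain ⟨g, h1, h2, h3⟩ := h.1 p
  exact (wk_ev h1 h2 h3).mono fun t ht => ht.1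

theorem Wk.int (ha : X.Sm a) (hb : X.Sm b) (h : X.Wk D F) : X.In (X.J a b F) := by
  obtain ⟨K, k1, k2, k3⟩ := h.2
  refine (integrableOn_iff_integrable_of_support_subset (s := K) fun t ht => ?_).1 ?_
  · by_contra hK
    refine ht (tr_off (K := K) (fun p hp => ?_) hK)
    simp [J, (dz_off k1.isClosed k3 hp).1, (dz_off k1.isClosed k3 hp).2]
  refine LocallyIntegrableOn.integrableOn_isCompact (fun t₀ ht => ?_) k1
  refine IntegrableAtFilter.filter_mono nhdsWithin_le_nhds ?_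
  choose g h1 h2 h3 using h.1
  have ca : ∀ᶠ t in 𝓝 t₀, ∀ p ∈ X.fib t₀, ContinuousAt (fun t => a (X.σ p t)) t ∧
      ContinuousAt (fun t => b (X.σ p t)) t ∧ ContinuousAt (fun t => wd 1 (g p) t / g p t) t ∧
      ContinuousAt (fun t => wb 1 (g p) t / g p t) t := (Finset.eventually_all _).2 fun p hp => by
    rw [← ψ_of hp]
    have e : ∀ {f : ℂ → ℂ}, ContDiffAt ℝ ∞ f (X.ψ p) → ∀ᶠ t in 𝓝 (X.ψ p), ContinuousAt f t :=
      fun hf => ((cd_two hf).eventually (by simp)).mono fun t ht => ht.continuousAt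
    filter_upwards [e (ha p), e (hb p), e (cd_wd (h1 p)), e (cd_wb (h1 p)), e (h1 p),
      (h1 p).continuousAt.eventually_ne (h2 p)] with t a1 a2 a3 a4 a5 a6
    exact ⟨a1, a2, a3.div a5 a6, a4.div a5 a6⟩
  refine loc_int (c := fun t => ∑ p ∈ X.fib t₀, D p * b (X.σ p t))
    (e := fun t => ∑ p ∈ X.fib t₀,
      (wd 1 (g p) t / g p t * b (X.σ p t) - wb 1 (g p) t / g p t * a (X.σ p t)))
    (ca.mono fun t c => tendsto_finsetSum _ fun p hp => continuousAt_const.mul (c p hp).2.1)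
    (ca.mono fun t c => tendsto_finsetSum _ fun p hp =>
      ((c p hp).2.2.1.mul (c p hp).2.1).sub ((c p hp).2.2.2.mul (c p hp).1)) ?_
  have h4 : ∀ᶠ t in 𝓝[≠] t₀, ∀ p ∈ X.fib t₀,
      X.dz F (X.σ p t) / F (X.σ p t) = (t - t₀)⁻¹ * D p + wd 1 (g p) t / g p t ∧
      X.db F (X.σ p t) / F (X.σ p t) = wb 1 (g p) t / g p t :=
    (Finset.eventually_all _).2 fun p hp =>
      ψ_of hp ▸ (wk_ev (h1 p) (h2 p) (h3 p)).mono fun t ht => ht.2
  filter_upwards [h4, nhdsWithin_le_nhds (X.sum_ev (M := ℂ) (k2 t₀ ht))] with t a1 a2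
  rw [a2, Finset.mul_sum, ← Finset.sum_add_distrib]
  refine Finset.sum_congr rfl fun p hp => ?_
  rw [J, (a1 p hp).1, (a1 p hp).2]
  ring

theorem Gd.mul {q : S} (hF : X.Gd F q) (hG : X.Gd G q) :
    X.J a b (fun p => F p * G p) q = X.J a b F q + X.J a b G q := by
  have h1 := wd_cmul hF.1 hG.1 1
  have h2 := wb_cmul hF.1 hG.1 1
  simp only [X.self] at h1 h2
  have := hF.2
  have := hG.2
  simp only [J, dz, db, h1, h2]
  field_simp
  ring

theorem int_congr {f g : S → ℂ} (h : ∀ᵐ t, ∀ q ∈ X.fib t, f q = g q) : X.int f = X.int g :=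
  integral_congr_ae (h.mono fun _ ht => Finset.sum_congr rfl ht)

theorem Wk.mul (hF : X.Wk D F) (hG : X.Wk E G) : X.Wk (D + E) fun p => F p * G p :=
  ⟨fun p => (hF.1 p).mul (hG.1 p), hF.2.op hG.2 (fun _ x y => x * y) fun _ => mul_one _⟩

theorem Wk.inv (hF : X.Wk D F) : X.Wk (-D) fun p => (F p)⁻¹ :=
  ⟨fun p => (hF.1 p).inv, hF.2.op1 (fun _ x => x⁻¹) fun _ => inv_one⟩

theorem Wk.int_mul (ha : X.Sm a) (hb : X.Sm b) (hF : X.Wk D F) (hG : X.Wk E G) :
    X.int (X.J a b fun p => F p * G p) = X.int (X.J a b F) + X.int (X.J a b G) := by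
  rw [← int_add (hF.int ha hb) (hG.int ha hb)]
  exact int_congr ((hF.gd.and hG.gd).mono fun t ht q hq => (ht.1 q hq).mul (ht.2 q hq))

/-- removal of the singularities -/
theorem Wk.zero (hF : X.Wk 0 F) : ∃ G, X.Lo G ∧ X.int (X.J a b G) = X.int (X.J a b F) := by
  choose g h1 h2 h3 using hF.1
  simp only [Pi.zero_apply, zpow_zero, one_mul] at h3
  have h4 : ∀ p, ∀ᶠ t in 𝓝[≠] (X.ψ p), (fun s => F (X.σ p s)) =ᶠ[𝓝 t] g p := fun p => by
    filter_upwards [eventually_eventually_nhdsWithin.2 (h3 p), self_mem_nhdsWithin] with t a1 a4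
    rwa [nhdsWithin_eq_nhds.2 (isOpen_compl_singleton.mem_nhds a4)] at a1
  have h5 : ∀ p, ∀ᶠ t in 𝓝 (X.ψ p), g (X.σ p t) (X.ψ (X.σ p t)) = g p t := fun p => by
    rw [← nhdsNE_sup_pure, eventually_sup, eventually_pure, X.self]
    refine ⟨?_, rfl⟩
    filter_upwards [h4 p, nhdsWithin_le_nhds (X.comp_ev (M := ℂ) p), nhdsWithin_le_nhds (X.sec p),
      nhdsWithin_le_nhds ((cd_two (h1 p)).eventually (by simp))] with t a1 a2 a3 a4
    have b1 := h3 (X.σ p t)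
    have b2 := (h1 (X.σ p t)).continuousAt
    have b3 := a2 F
    rw [a3.1] at b1 b2 b3 ⊢
    refine tendsto_nhds_unique (l := 𝓝[≠] t) (b2.tendsto.mono_left nhdsWithin_le_nhds)
      ((a4.continuousAt.tendsto.mono_left nhdsWithin_le_nhds).congr' ?_)
    filter_upwards [b1, nhdsWithin_le_nhds (b3.trans a1)] with s c1 c2
    rw [← c1, c2]
  refine ⟨fun p => g p (X.ψ p), ⟨fun p => (h1 p).congr_of_eventuallyEq (h5 p), h2, ?_⟩, ?_⟩
  · obtain ⟨K, k1, k2, k3⟩ := hF.2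
    refine ⟨K, k1, k2, fun p hp => ?_⟩
    refine tendsto_nhds_unique (l := 𝓝[≠] (X.ψ p))
      ((h1 p).continuousAt.tendsto.mono_left nhdsWithin_le_nhds) (tendsto_const_nhds.congr' ?_)
    filter_upwards [h3 p, nhdsWithin_le_nhds (X.sec p),
      nhdsWithin_le_nhds (k1.isClosed.isOpen_compl.mem_nhds hp)] with t a1 a2 a3
    rw [← a1, k3 _ (by rwa [a2.1])]
  · refine int_congr (ae_of_ev fun p => ?_)
    filter_upwards [h4 p, nhdsWithin_le_nhds (X.dz_ev p),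
      nhdsWithin_le_nhds (h5 p).eventually_nhds] with t a1 a2 a3
    have e : (fun s => g (X.σ p s) (X.ψ (X.σ p s))) =ᶠ[𝓝 t] fun s => F (X.σ p s) :=
      EventuallyEq.trans a3 a1.symm
    have e0 : g (X.σ p t) (X.ψ (X.σ p t)) = F (X.σ p t) := e.eq_of_nhds
    simp only [J, (a2 _).1, (a2 _).2, wd_congr e, wb_congr e, e0]

open Classical in
/-- the divisor `q - p` -/
def dv (p q : S) (x : S) : ℤ := (if x = q then 1 else 0) - if x = p then 1 else 0

/-- `c` is a multiple of the integral of the form from `p` to `q` -/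
def Rel (X : Cov S) (a b : S → ℂ) (p q : S) (c : ℂ) : Prop :=
  ∃ F, X.Wk (dv p q) F ∧ X.int (X.J a b F) = c

theorem wk_one : X.Wk 0 fun _ => 1 :=
  ⟨fun _ => pw_sm contDiffAt_const one_ne_zero, cs_const 1⟩

theorem int_one : X.int (X.J a b fun _ => 1) = 0 := by
  have : X.J a b (fun _ => 1) = fun _ => 0 := funext fun p => by simp [J, dz_const, db_const]
  rw [this, int_zero]

theorem rel_refl (p : S) : X.Rel a b p p 0 :=
  ⟨fun _ => 1, (show dv p p = 0 from funext fun _ => sub_self _) ▸ wk_one, int_one⟩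

theorem Rel.trans (ha : X.Sm a) (hb : X.Sm b) {p q r : S} {c d : ℂ} (h : X.Rel a b p q c)
    (h' : X.Rel a b q r d) : X.Rel a b p r (c + d) := by
  obtain ⟨F, h1, rfl⟩ := h
  obtain ⟨G, h2, rfl⟩ := h'
  have e : dv p r = dv p q + dv q r := funext fun x => by simp only [dv, Pi.add_apply]; ring
  exact ⟨_, e ▸ h1.mul h2, h1.int_mul ha hb h2⟩

theorem Rel.symm (ha : X.Sm a) (hb : X.Sm b) {p q : S} {c : ℂ} (h : X.Rel a b p q c) :
    X.Rel a b q p (-c) := by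
  obtain ⟨F, h1, rfl⟩ := h
  have e : dv q p = -dv p q := funext fun x => by simp only [dv, Pi.neg_apply]; ring
  refine ⟨_, e ▸ h1.inv, eq_neg_of_add_eq_zero_right ?_⟩
  rw [← h1.int_mul ha hb h1.inv, ← int_one (X := X) (a := a) (b := b)]
  refine int_congr (ae_of_ev fun p => ?_)
  obtain ⟨g, g1, g2, g3⟩ := h1.1 p
  filter_upwards [eventually_eventually_nhdsWithin.2 (wk_ev g1 g2 g3), self_mem_nhdsWithin,
    nhdsWithin_le_nhds (X.dz_ev p)] with t a1 a4 a2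
  rw [nhdsWithin_eq_nhds.2 (isOpen_compl_singleton.mem_nhds a4)] at a1
  have e : (fun s => F (X.σ p s) * (F (X.σ p s))⁻¹) =ᶠ[𝓝 t] fun _ => 1 :=
    a1.mono fun s hs => mul_inv_cancel₀ hs.1.2
  simp only [J, (a2 _).1, (a2 _).2, wd_congr e, wb_congr e, wd_const, wb_const, zero_div]

open Classical in
theorem rel_loc (ha : X.Sm a) (hb : X.Sm b) (hc : X.db a = X.dz b) (p : S) : ∃ h : ℂ → ℂ,
    ContDiff ℝ ∞ h ∧ wd 1 h (X.ψ p) = a p ∧ wb 1 h (X.ψ p) = b p ∧
      ∀ᶠ s in 𝓝 (X.ψ p), X.Rel a b p (X.σ p s) (-(π * (h s - h (X.ψ p)))) := by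
  obtain ⟨R, hR, hB⟩ := nhds_basis_ball.eventually_iff.1 ((X.sec p).and ((ha.ev p).and
    ((hb.ev p).and ((X.dz_ev p).and (ev_notMem _ (X.nz p))))))
  obtain ⟨r, rfl⟩ : ∃ r, R = 5 * r := ⟨R / 5, by ring⟩
  have hr : 0 < r := by linarith
  obtain ⟨h, s1, s2, s3⟩ := poinc (a := fun t => a (X.σ p t)) (b := fun t => b (X.σ p t))
    (show 0 < 4 * r by linarith) (show 4 * r < 5 * r by linarith) (fun t ht => (hB ht).2.1)
    (fun t ht => (hB ht).2.2.1) fun t ht => by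
      rw [← ((hB ht).2.2.2.1 a).2, ← ((hB ht).2.2.2.1 b).1, hc]
  have m0 : X.ψ p ∈ ball (X.ψ p) (4 * r) := mem_ball_self (by linarith)
  refine ⟨h, s1, by rw [(s3 _ m0).1, X.self], by rw [(s3 _ m0).2, X.self], ?_⟩
  refine eventually_of_mem (ball_mem_nhds _ hr) fun s hs => ?_
  obtain ⟨φ, f1, f2, f3⟩ := seg hs
  have sub : closedBall (X.ψ p) (3 * r) ⊆ ball (X.ψ p) (5 * r) :=
    closedBall_subset_ball (by linarith)
  have hs' : s ∈ ball (X.ψ p) (5 * r) := ball_subset_ball (by linarith) hs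
  set F : S → ℂ := fun q => if X.ψ q ∈ ball (X.ψ p) (5 * r) ∧ q = X.σ p (X.ψ q) then φ (X.ψ q)
    else 1 with hF
  have on : ∀ t ∈ ball (X.ψ p) (5 * r), F (X.σ p t) = φ t := fun t ht => by
    simp only [hF, (hB ht).1.1, ht, and_self, if_true]
  have off : ∀ q, X.ψ q ∉ closedBall (X.ψ p) (3 * r) → F q = 1 := fun q hq => by
    simp only [hF, f1 _ hq, ite_self]
  have off' : ∀ q, ¬(X.ψ q ∈ ball (X.ψ p) (5 * r) ∧ q = X.σ p (X.ψ q)) →
      ∀ᶠ t in 𝓝 (X.ψ q), F (X.σ q t) = 1 := fun q hq => by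
    by_cases h3 : X.ψ q ∈ closedBall (X.ψ p) (3 * r)
    · have b1 := hB (sub h3)
      filter_upwards [X.bij _ (X.nz q), X.sec q, b1.1.2] with t a1 a2 a3
      refine if_neg fun h4 => hq ⟨sub h3, a1.injOn (X.mem_self q) ((X.mem _ _).2 b1.1.1) ?_⟩
      rw [a2.1] at h4
      exact h4.2.trans a3.symm
    · filter_upwards [X.sec q, isClosed_closedBall.isOpen_compl.mem_nhds h3] with t a1 a2
      exact off _ (by rwa [a1.1])
  have on' : ∀ t ∈ ball (X.ψ p) (5 * r), (fun u => F (X.σ p u)) =ᶠ[𝓝 t] φ := fun t ht =>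
    eventually_of_mem (isOpen_ball.mem_nhds ht) on
  refine ⟨F, ⟨fun q => ?_, _, isCompact_closedBall _ _, fun t ht => (hB (sub ht)).2.2.2.2, off⟩, ?_⟩
  · by_cases hq : X.ψ q ∈ ball (X.ψ p) (5 * r) ∧ q = X.σ p (X.ψ q)
    · have e1 : q = X.σ p s ↔ X.ψ q = s :=
        ⟨fun h => by rw [h, (hB hs').1.1], fun h => by rw [← h]; exact hq.2⟩
      have e2 : q = p ↔ X.ψ q = X.ψ p :=
        ⟨fun h => by rw [h], fun h => by rw [hq.2, h, X.self]⟩
      have e : dv p (X.σ p s) q =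
          (if X.ψ q = s then 1 else 0) - if X.ψ q = X.ψ p then 1 else 0 := by
        rw [dv, if_congr e1 rfl rfl, if_congr e2 rfl rfl]
      rw [e]
      refine (f2 (X.ψ q)).congr (nhdsWithin_le_nhds ?_)
      filter_upwards [(hB hq.1).1.2, on' _ hq.1] with t a1 a2
      rw [← a2, ← a1, ← hq.2]
    · have e1 : q ≠ X.σ p s := fun h => hq (by rw [h, (hB hs').1.1]; exact ⟨hs', rfl⟩)
      have e2 : q ≠ p := fun h => hq (by rw [h, X.self]; exact ⟨mem_ball_self hR, rfl⟩)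
      have e : dv p (X.σ p s) q = 0 := by simp only [dv, e1, e2, if_false, sub_zero]
      rw [e]
      exact (pw_sm (f := fun _ => 1) contDiffAt_const one_ne_zero).congr
        (nhdsWithin_le_nhds (off' q hq))
  · rw [← f3 h s1 s2]
    refine integral_congr_ae (Eventually.of_forall fun t => ?_)
    have z : ∀ q, ¬(X.ψ q ∈ ball (X.ψ p) (5 * r) ∧ q = X.σ p (X.ψ q)) → X.J a b F q = 0 :=
      fun q hq => by
        have h1 := off' q hq
        have h2 : F q = 1 := by simpa only [X.self] using h1.self_of_nhds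
        have h3 := dz_lc (f := F) (p := q) (h2 ▸ h1)
        simp only [J, h3.1, h3.2, zero_div, zero_mul, sub_zero]
    have z' : t ∉ closedBall (X.ψ p) (3 * r) → wd 1 φ t = 0 ∧ wb 1 φ t = 0 := fun ht => by
      have e : φ =ᶠ[𝓝 t] fun _ => 1 :=
        eventually_of_mem (isClosed_closedBall.isOpen_compl.mem_nhds ht) f1
      exact ⟨(wd_congr e 1).trans (wd_const _ _ _), (wb_congr e 1).trans (wb_const _ _ _)⟩
    by_cases ht : t ∈ ball (X.ψ p) (5 * r)
    · have b1 := hB ht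
      simp only
      rw [Finset.sum_eq_single_of_mem (X.σ p t) ((X.mem _ _).2 b1.1.1)
        fun q hq hne => z q fun h => hne (by rw [h.2, ψ_of hq])]
      rw [J, (b1.2.2.2.1 F).1, (b1.2.2.2.1 F).2, wd_congr (on' t ht), wb_congr (on' t ht), on t ht]
      by_cases h3 : t ∈ closedBall (X.ψ p) (3 * r)
      · have := s3 t (closedBall_subset_ball (by linarith) h3)
        rw [this.1, this.2]
      · simp only [(z' h3).1, (z' h3).2, zero_div, zero_mul]
    · have h3 := z' fun h => ht (sub h)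
      simp only [h3.1, h3.2, zero_div, zero_mul, sub_zero]
      exact Finset.sum_eq_zero fun q hq => z q fun h => ht (ψ_of hq ▸ h.1)

end Cov

open Cov in
theorem exa : EXA := by
  intro S X a b ha hb hc h0
  have lp : ∀ p c, X.Rel a b p p c → c = 0 := by
    rintro p c ⟨F, h1, rfl⟩
    rw [show dv p p = 0 from funext fun _ => sub_self _] at h1
    obtain ⟨G, g1, g2⟩ := h1.zero (a := a) (b := b)
    exact g2 ▸ h0 G g1
  let R : Setoid S := ⟨fun p q => ∃ c, X.Rel a b p q c, fun p => ⟨0, rel_refl p⟩,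
    fun ⟨c, h⟩ => ⟨_, h.symm ha hb⟩, fun ⟨c, h⟩ ⟨d, h'⟩ => ⟨_, h.trans ha hb h'⟩⟩
  have ex : ∀ p, ∃ c, X.Rel a b (Quotient.mk R p).out p c := fun p => Quotient.mk_out (s := R) p
  choose c hc' using ex
  have key : ∀ p, ∃ h : ℂ → ℂ, ContDiff ℝ ∞ h ∧ wd 1 h (X.ψ p) = a p ∧ wb 1 h (X.ψ p) = b p ∧
      (fun s => -(π : ℂ)⁻¹ * c (X.σ p s)) =ᶠ[𝓝 (X.ψ p)]
        fun s => h s + (-(π : ℂ)⁻¹ * c p - h (X.ψ p)) := fun p => by
    obtain ⟨h, h1, h2, h3, h4⟩ := rel_loc ha hb hc p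
    refine ⟨h, h1, h2, h3, h4.mono fun s hs => ?_⟩
    have e : Quotient.mk R p = Quotient.mk R (X.σ p s) := Quotient.sound ⟨_, hs⟩
    have h5 := hc' (X.σ p s)
    rw [← e] at h5
    have h6 := lp _ _ (((hc' p).trans ha hb hs).trans ha hb (h5.symm ha hb))
    have := pi_ne
    have h7 : c (X.σ p s) = c p + -(π * (h s - h (X.ψ p))) := by linear_combination -h6
    simp only [h7]
    field_simp
    ring
  refine ⟨fun p => -(π : ℂ)⁻¹ * c p, fun p => ?_, funext fun p => ?_, funext fun p => ?_⟩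
  · obtain ⟨h, h1, -, -, h4⟩ := key p
    exact (h1.contDiffAt.add contDiffAt_const).congr_of_eventuallyEq h4
  · obtain ⟨h, h1, h2, -, h4⟩ := key p
    rw [dz, wd_congr h4, wd_add (cd_df h1.contDiffAt) (differentiableAt_const _), wd_const, h2,
      add_zero]
  · obtain ⟨h, h1, -, h3, h4⟩ := key p
    rw [db, wb_congr h4, wb_add (cd_df h1.contDiffAt) (differentiableAt_const _), wb_const, h3,
      add_zero]

end Vale.Agent.P275DL
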