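import Vale.Agent.P275DL.Defs

/-!
# P275, block DL: linear algebra of the rank bound
-/

open Module

noncomputable section

namespace Vale.Agent.P275DL

theorem la_step {V W : Type} [AddCommGroup V] [Module ℂ V] [AddCommGroup W] [Module ℂ W]
    [FiniteDimensional ℂ W] (om : V →ₗ[ℂ] V →ₗ[ℂ] ℂ) (B : V →ₗ[ℂ] W →ₗ[ℂ] ℂ)
    (h2 : ∀ α, (∀ v, B v α = 0) → α = 0)
    (h3 : ∀ α α' v, (∀ v', B v' α = om v' v) → B v α' = 0) (A : Submodule ℂ V)
    [FiniteDimensional ℂ A]
    (h : ∀ v, (∀ a ∈ A, om v a = 0) → ∃ a ∈ A, ∀ v', om v' (v - a) = 0) :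
    finrank ℂ W ≤ finrank ℂ A := by
  set Φ : W →ₗ[ℂ] Module.Dual ℂ A := (B.domRestrict A).flip with hΦ
  set K : Submodule ℂ A := LinearMap.ker (B.domRestrict A) with hK
  have e1 := LinearMap.finrank_range_add_finrank_ker Φ
  have e2 : finrank ℂ (LinearMap.range Φ) ≤ finrank ℂ K.dualAnnihilator := by
    refine Submodule.finrank_mono ?_
    rintro _ ⟨α, rfl⟩
    rw [Submodule.mem_dualAnnihilator]
    intro a ha
    exact LinearMap.congr_fun (LinearMap.mem_ker.1 ha) α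
  have e3 := Subspace.finrank_add_finrank_dualAnnihilator_eq K
  set T : K →ₗ[ℂ] Module.Dual ℂ V := om.flip ∘ₗ A.subtype ∘ₗ K.subtype with hT
  set U : LinearMap.ker Φ →ₗ[ℂ] Module.Dual ℂ V := B.flip ∘ₗ (LinearMap.ker Φ).subtype with hU
  have iU : Function.Injective U := (injective_iff_map_eq_zero U).2 fun α hα =>
    Subtype.ext (h2 _ fun v => LinearMap.congr_fun hα v)
  have le : LinearMap.range U ≤ LinearMap.range T := by
    rintro _ ⟨α, rfl⟩
    let b := Module.finBasis ℂ A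
    have h4 : B.flip α.1 ∈ Submodule.span ℂ (Set.range fun i => om.flip (b i : V)) := by
      refine mem_span_of_iInf_ker_le_ker fun v hv => ?_
      have h5 : om v ∘ₗ A.subtype = 0 := b.ext fun i => (Submodule.mem_iInf _).1 hv i
      obtain ⟨a, ha, h6⟩ := h v fun a ha => LinearMap.congr_fun h5 ⟨a, ha⟩
      have h7 := h3 0 α.1 (v - a) fun v' => by rw [h6, map_zero]
      have h8 : B a α.1 = 0 := LinearMap.congr_fun (LinearMap.mem_ker.1 α.2) ⟨a, ha⟩
      rw [map_sub, LinearMap.sub_apply, h8, sub_zero] at h7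
      exact h7
    have h5 : Submodule.span ℂ (Set.range fun i => om.flip (b i : V)) ≤
        LinearMap.range (om.flip ∘ₗ A.subtype) := by
      rw [Submodule.span_le]
      rintro _ ⟨i, rfl⟩
      exact ⟨b i, rfl⟩
    obtain ⟨a, ha⟩ := h5 h4
    have h6 : ∀ v', B v' α.1 = om v' a := fun v' => (LinearMap.congr_fun ha v').symm
    exact ⟨⟨a, LinearMap.mem_ker.2 (LinearMap.ext fun α' => h3 α.1 α' a h6)⟩, ha⟩
  have e4 : finrank ℂ (LinearMap.ker Φ) ≤ finrank ℂ K := by
    rw [← LinearMap.finrank_range_of_inj iU]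
    exact (Submodule.finrank_mono le).trans (LinearMap.finrank_range_le T)
  omega

theorem la {V W : Type} [AddCommGroup V] [Module ℂ V] [AddCommGroup W] [Module ℂ W]
    [FiniteDimensional ℂ W] (om : V →ₗ[ℂ] V →ₗ[ℂ] ℂ) (hs : ∀ v w, om v w = -om w v)
    (B : V →ₗ[ℂ] W →ₗ[ℂ] ℂ) (h2 : ∀ α, (∀ v, B v α = 0) → α = 0)
    (h3 : ∀ α α' v, (∀ v', B v' α = om v' v) → B v α' = 0) :
    ∃ A : Submodule ℂ V, finrank ℂ W ≤ finrank ℂ A ∧ (∀ v ∈ A, ∀ w ∈ A, om v w = 0) ∧
      ∀ v ∈ A, v ≠ 0 → ∃ w, om v w ≠ 0 := by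
  have h0 : ∀ v, om v v = 0 := fun v => by linear_combination (hs v v) / 2
  have key : ∀ s ≤ finrank ℂ W, ∃ A : Submodule ℂ V, FiniteDimensional ℂ A ∧ finrank ℂ A = s ∧
      (∀ v ∈ A, ∀ w ∈ A, om v w = 0) ∧ ∀ v ∈ A, (∀ w, om w v = 0) → v = 0 := by
    intro s
    induction s with
    | zero => exact fun _ => ⟨⊥, inferInstance, finrank_bot _ _, by simp, by simp⟩
    | succ s ih =>
      intro hs'
      obtain ⟨A, f, a1, a2, a3⟩ := ih (by omega)
      obtain ⟨v, v1, v2⟩ : ∃ v, (∀ a ∈ A, om v a = 0) ∧ ∀ a ∈ A, ∃ v', om v' (v - a) ≠ 0 := by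
        by_contra hc
        push Not at hc
        have := la_step om B h2 h3 A hc
        omega
      have hv : v ∉ A := fun h => by simpa using v2 v h
      have hd : finrank ℂ (A ⊔ Submodule.span ℂ {v} : Submodule ℂ V) = s + 1 := by
        have := Submodule.finrank_sup_add_finrank_inf_eq A (Submodule.span ℂ {v})
        rwa [finrank_span_singleton (fun h : v = 0 => hv (h ▸ A.zero_mem)),
          ((Submodule.disjoint_span_singleton' (fun h : v = 0 => hv (h ▸ A.zero_mem))).2 hv).eq_bot,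
          finrank_bot, add_zero, a1] at this
      refine ⟨A ⊔ Submodule.span ℂ {v}, inferInstance,
        hd, fun x hx y hy => ?_, fun x hx h => ?_⟩
      · obtain ⟨a, ha, _, hx', rfl⟩ := Submodule.mem_sup.1 hx
        obtain ⟨c, rfl⟩ := Submodule.mem_span_singleton.1 hx'
        obtain ⟨b, hb, _, hy', rfl⟩ := Submodule.mem_sup.1 hy
        obtain ⟨d, rfl⟩ := Submodule.mem_span_singleton.1 hy'
        simp [a2 a ha b hb, v1 b hb, hs a v, v1 a ha, h0]
      · obtain ⟨a, ha, _, hx', rfl⟩ := Submodule.mem_sup.1 hx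
        obtain ⟨c, rfl⟩ := Submodule.mem_span_singleton.1 hx'
        by_cases hc : c = 0
        · simp only [hc, zero_smul, add_zero] at h ⊢
          exact a3 a ha h
        · obtain ⟨v', hv'⟩ := v2 (-(c⁻¹ • a)) (neg_mem (A.smul_mem _ ha))
          refine absurd ?_ hv'
          have : v - -(c⁻¹ • a) = c⁻¹ • (a + c • v) := by
            rw [smul_add, smul_smul, inv_mul_cancel₀ hc, one_smul, sub_neg_eq_add, add_comm]
          rw [this, map_smul, h, smul_zero]
  obtain ⟨A, -, a1, a2, a3⟩ := key _ le_rfl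
  refine ⟨A, a1.ge, a2, fun v hv h => ?_⟩
  by_contra hc
  push Not at hc
  exact h (a3 v hv fun w => by rw [hs, hc, neg_zero])

theorem ex2_single {L : Type} (Q : L → L → ℂ) (l l' : L) (c c' : ℂ) :
    ex2 Q (Finsupp.single l c) (Finsupp.single l' c') = c * c' * Q l l' := by
  simp [ex2, mul_assoc]

theorem Rk.mono {L : Type} {Q : L → L → ℂ} {s t : ℕ} (h : Rk Q s) (ht : t ≤ s) : Rk Q t := by
  obtain ⟨W, h1, h2⟩ := h
  exact ⟨W, ht.trans h1, h2⟩

theorem Rk.map {L L' : Type} {Q : L → L → ℂ} {Q' : L' → L' → ℂ} {s : ℕ} (h : Rk Q s) (ι : L → L')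
    (hι : ∀ F G, Q' (ι F) (ι G) = Q F G) : Rk Q' s := by
  obtain ⟨W, h1, h2, h3⟩ := h
  have e : ∀ v w, ex2 Q' (Finsupp.lmapDomain ℂ ℂ ι v) (Finsupp.lmapDomain ℂ ℂ ι w) = ex2 Q v w := by
    intro v w
    induction v using Finsupp.induction_linear with
    | zero => simp
    | add a b ha hb => simp only [map_add, LinearMap.add_apply, ha, hb]
    | single l c =>
      induction w using Finsupp.induction_linear with
      | zero => simp
      | add a b ha hb => simp only [map_add, ha, hb]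
      | single l' c' =>
        simp only [Finsupp.lmapDomain_apply, Finsupp.mapDomain_single, ex2_single, hι]
  refine ⟨W.map (Finsupp.lmapDomain ℂ ℂ ι), ?_, ?_, ?_⟩
  · have i : Function.Injective (Finsupp.lmapDomain ℂ ℂ ι ∘ₗ W.subtype) :=
      (injective_iff_map_eq_zero _).2 fun v hv => by
        by_contra h0
        obtain ⟨w, hw⟩ := h3 v v.2 fun h => h0 (Subtype.ext h)
        have hv' : Finsupp.lmapDomain ℂ ℂ ι v = 0 := hv
        exact hw (by rw [← e, hv', map_zero, LinearMap.zero_apply])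
    have := LinearMap.finrank_range_of_inj i
    rw [LinearMap.range_comp, Submodule.range_subtype] at this
    exact this ▸ h1
  · rintro _ ⟨v, hv, rfl⟩ _ ⟨w, hw, rfl⟩
    rw [e, h2 v hv w hw]
  · rintro _ ⟨v, hv, rfl⟩ h0
    obtain ⟨w, hw⟩ := h3 v hv fun h => h0 (by rw [h, map_zero])
    exact ⟨Finsupp.lmapDomain ℂ ℂ ι w, by rwa [e]⟩

/-- assembly -/
theorem delta_of (h1 : RANK) (h2 : GENS) (h3 : FORM) (h4 : ZDIM) (h5 : PLT) : DELTA := by
  intro C _ _ _ A V _ _ _ n D hn hM t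
  let e := (Module.finBasis ℂ V).equivFun
  let : NormedAddCommGroup V := NormedAddCommGroup.induced V _ e e.injective
  let : NormedSpace ℂ V := NormedSpace.induced ℂ V _ e
  obtain ⟨S, X, D', hD⟩ := h5 C A V n D hn hM
  obtain ⟨Z, z1, z2⟩ := h4 V {v | ¬Rk (Loop.Q (P := D.P v)) t} t fun Y _ hY => by
    obtain ⟨G, g1, g2⟩ := h2 S V X n D' Y hY
    refine ⟨G, g1, fun d φ a1 a2 a3 a4 a5 => ?_⟩
    obtain ⟨q, δ, N, hq⟩ := g2 d φ a1 a2 a3
    obtain ⟨S', Y', w, y, u, b1, b2⟩ := h3 S V X n D' d φ q δ N hn a1 a4 hq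
    obtain ⟨ι, hι⟩ := hD _ S' Y' w y b1
    have r := (h1 S' S Y' n w _ u b2).map ι hι
    rw [Module.finrank_fin_fun] at r
    exact not_le.1 fun h => a5 (r.mono h)
  exact ⟨Z, z1, fun v hv => not_not.1 fun h => hv (z2 h)⟩

end Vale.Agent.P275DL
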