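import Vale.Agent.P275DL.Main
import Vale.Agent.P275PL.Pole

/-!
# P275, block DL: the delta inequality with loops which are trivial near a given point
-/

namespace Vale.Agent.P275DL

theorem deltap : P275PG.DELTAP := P275PL.deltap_of rank' P275GE.gens form' zdim

end Vale.Agent.P275DL
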