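import Vale.Agent.P275DL.Bas
import Vale.Agent.P275LL.Loc

/-!
# P275, block DL: local branches of the spectral cover in an equisingular family
-/

set_option linter.unusedSectionVars false

open scoped Topology ContDiff
open Set Filter Metric Polynomial
open Vale.Agent.P275LL

noncomputable section

namespace Vale.Agent.P275DL

theorem mon_coeff (n : ℕ) (c : ℕ → ℂ) (k : ℕ) :
    (mon n c).coeff k = (if k = n then 1 else 0) + if k < n then c k else 0 := by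
  simp only [mon, coeff_add, coeff_X_pow, finsetSum_coeff, coeff_C_mul, mul_ite, mul_one, mul_zero,
    Finset.sum_ite_eq, Finset.mem_range]

theorem low_deg (n : ℕ) (c : ℕ → ℂ) : (∑ k ∈ Finset.range n, C (c k) * X ^ k : ℂ[X]).degree < n := by
  simpa only [Finset.sum_range] using degree_sum_fin_lt fun k : Fin n => c k

theorem mon_monic (n : ℕ) (c : ℕ → ℂ) : (mon n c).Monic := monic_X_pow_add (low_deg n c)

theorem mon_deg (n : ℕ) (c : ℕ → ℂ) : (mon n c).natDegree = n := by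
  rw [mon, natDegree_add_eq_left_of_degree_lt (by rw [degree_X_pow]; exact low_deg n c),
    natDegree_X_pow]

theorem mon_eval (n : ℕ) (c : ℕ → ℂ) (z : ℂ) :
    (mon n c).eval z = z ^ n + ∑ k ∈ Finset.range n, c k * z ^ k := by
  simp [mon, eval_finsetSum]

theorem an_prod_coeff {E ι : Type} [NormedAddCommGroup E] [NormedSpace ℂ E] {e₀ : E} (s : Finset ι)
    {P : ι → E → ℂ[X]} (h : ∀ i ∈ s, ∀ k, AnalyticAt ℂ (fun e => (P i e).coeff k) e₀) (k : ℕ) :
    AnalyticAt ℂ (fun e => (∏ i ∈ s, P i e).coeff k) e₀ := by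
  classical
  induction s using Finset.induction_on generalizing k with
  | empty => simpa using analyticAt_const
  | insert a s ha ih =>
    simp only [Finset.prod_insert ha, coeff_mul]
    exact Finset.analyticAt_fun_sum _ fun j _ =>
      (h a (by simp) _).mul (ih (fun i hi => h i (by simp [hi])) _)

theorem rm_prod {s : Finset ℂ} {y : ℂ → ℂ} (hy : InjOn y s) (m : ℂ → ℕ) {r : ℂ} (hr : r ∈ s) :
    (∏ i ∈ s, (X - C (y i)) ^ m i : ℂ[X]).rootMultiplicity (y r) = m r := by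
  have h0 : (∏ i ∈ s.erase r, (X - C (y i)) ^ m i : ℂ[X]).eval (y r) ≠ 0 := by
    rw [eval_prod]
    refine Finset.prod_ne_zero_iff.2 fun i hi => ?_
    rw [eval_pow, eval_sub, eval_X, eval_C]
    exact pow_ne_zero _ (sub_ne_zero.2 fun h =>
      (Finset.mem_erase.1 hi).1 (hy (Finset.mem_erase.1 hi).2 hr h.symm))
  rw [← Finset.mul_prod_erase _ _ hr, rootMultiplicity_mul (mul_ne_zero
    (pow_ne_zero _ (X_sub_C_ne_zero _)) fun h => h0 (by rw [h, eval_zero])),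
    rootMultiplicity_X_sub_C_pow, rootMultiplicity_eq_zero h0, add_zero]

theorem ev_inj {E : Type} [TopologicalSpace E] {e₀ : E} {y : ℂ → E → ℂ}
    (h : ∀ r, ContinuousAt (y r) e₀ ∧ y r e₀ = r) (s : Finset ℂ) :
    ∀ᶠ e in 𝓝 e₀, InjOn (fun r => y r e) s := by
  have : ∀ᶠ e in 𝓝 e₀, ∀ r ∈ s, ∀ r' ∈ s, r ≠ r' → y r e - y r' e ≠ 0 :=
    (Finset.eventually_all _).2 fun r _ => (Finset.eventually_all _).2 fun r' _ => by
      by_cases hr : r = r'
      · exact Eventually.of_forall fun _ h => absurd hr h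
      · exact (((h r).1.sub (h r').1).eventually_ne (y := 0)
          (by simpa only [Pi.sub_apply, (h r).2, (h r').2, ne_eq, sub_eq_zero] using hr)).mono
          fun e he _ => he
  exact this.mono fun e he r hr r' hr' h => by
    by_contra hn
    exact he r hr r' hr' hn (sub_eq_zero.2 h)

namespace SD

variable {S V E : Type} {Y : Cov S} [NormedAddCommGroup V] [NormedSpace ℂ V] [FiniteDimensional ℂ V]
  {n : ℕ} (D : SD Y V n) [NormedAddCommGroup E] [NormedSpace ℂ E] [CompleteSpace E] {φ : E → V}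
  {q : E → ℂ[X]} {δ N : ℕ}

/-- evaluation of a coefficient at a point -/
def cL (k : ℕ) (x : S) : V →L[ℂ] ℂ :=
  LinearMap.toContinuousLinearMap (LinearMap.proj x ∘ₗ D.c k)

theorem cL_apply (k : ℕ) (x : S) (v : V) : D.cL k x v = D.c k v x := rfl

/-- the local family of polynomials along the sheet through `x` -/
def fam (φ : E → V) (x : S) (e : ℂ × E) : ℂ[X] := D.P (φ e.2) (Y.σ x e.1)

theorem fam_self (x : S) (T : E) : D.fam φ x (Y.ψ x, T) = D.P (φ T) x := by rw [fam, Y.self]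

theorem an_fam (hφ : AnalyticAt ℂ φ 0) (x : S) (k : ℕ) :
    AnalyticAt ℂ (fun e => (D.fam φ x e).coeff k) (Y.ψ x, 0) := by
  simp only [fam, P, mon_coeff]
  refine analyticAt_const.add ?_
  split_ifs
  swap
  · exact analyticAt_const
  let b := Module.finBasis ℂ V
  have e : ∀ e : ℂ × E, D.c k (φ e.2) (Y.σ x e.1) =
      ∑ i, LinearMap.toContinuousLinearMap (b.coord i) (φ e.2) * D.c k (b i) (Y.σ x e.1) := fun e => by
    conv_lhs => rw [← b.sum_repr (φ e.2), map_sum, Finset.sum_apply]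
    exact Finset.sum_congr rfl fun i _ => by rw [map_smul]; rfl
  simp only [e]
  exact Finset.analyticAt_fun_sum _ fun i _ => AnalyticAt.mul
    ((ContinuousLinearMap.analyticAt _ _).comp
      (AnalyticAt.comp (f := Prod.snd) (x := (Y.ψ x, (0 : E))) hφ analyticAt_snd))
    (AnalyticAt.comp (g := fun t => D.c k (b i) (Y.σ x t)) (f := Prod.fst) (x := (Y.ψ x, (0 : E)))
      (D.hl k (b i) x) analyticAt_fst)

variable {D}

theorem Disc.ne (hq : D.Disc φ q δ N) : q 0 ≠ 0 := hq.ev.self_of_nhds.1.ne_zero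

theorem Disc.sub (hq : D.Disc φ q δ N) : Y.Z ⊆ (q 0).roots.toFinset := fun t ht =>
  Multiset.mem_toFinset.2 ((mem_roots hq.ne).2 (hq.ev.self_of_nhds.2.2.2.1 t ht))

theorem Disc.nr_le (hq : D.Disc φ q δ N) (hφ : AnalyticAt ℂ φ 0) {x : S}
    (hx : Y.ψ x ∉ (q 0).roots.toFinset) :
    ∀ᶠ e in 𝓝 (Y.ψ x, (0 : E)), nr (D.fam φ x e) ≤ nr (D.fam φ x (Y.ψ x, 0)) := by
  have h0 : (q 0).eval (Y.ψ x) ≠ 0 := fun h => hx (Multiset.mem_toFinset.2 ((mem_roots hq.ne).2 h))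
  have hF : Fam q 0 δ := ⟨hq.an, hq.ev.mono fun _ h => h.2.1.le⟩
  have h1 : ∀ᶠ e : ℂ × E in 𝓝 (Y.ψ x, 0), (q e.2).eval e.1 ≠ 0 :=
    (continuous_swap.tendsto (Y.ψ x, (0 : E))).eventually
      ((hF.an (Y.ψ x)).continuousAt.eventually_ne h0)
  have h2 : ∀ᶠ e : ℂ × E in 𝓝 (Y.ψ x, 0), nr (∏ x' ∈ Y.fib (Y.ψ x), D.fam φ x' e) = N := by
    filter_upwards [h1, (continuous_snd.tendsto _).eventually hq.ev,
      (continuous_fst.tendsto _).eventually (Y.prod_ev (M := ℂ[X]) (Y.nz x))] with e a1 a2 a3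
    rw [← a2.2.2.2.2 _ a1, Nm, a3]
    rfl
  have mo : ∀ e, (∏ x' ∈ Y.fib (Y.ψ x), D.fam φ x' e).Monic := fun e =>
    monic_prod_of_monic _ _ fun _ _ => mon_monic _ _
  obtain ⟨y, y1, y2⟩ := loc (ℂ × E) (fun e => ∏ x' ∈ Y.fib (Y.ψ x), D.fam φ x' e) (Y.ψ x, 0)
    (∑ _x ∈ Y.fib (Y.ψ x), n)
    (an_prod_coeff _ fun x' hx' k => Cov.ψ_of hx' ▸ D.an_fam hφ x' k)
    (h2.mono fun e he => ⟨mo e, (natDegree_prod_of_monic _ _ fun _ _ => mon_monic _ _).trans
      (Finset.sum_congr rfl fun _ _ => mon_deg _ _), (he.trans h2.self_of_nhds.symm).le⟩)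
  have hb := bra_of (fun r => ⟨(y1 r).1.continuousAt, (y1 r).2⟩) y2
  have hG : Fam (D.fam φ x) (Y.ψ x, 0) n :=
    ⟨D.an_fam hφ x, Eventually.of_forall fun _ => (mon_deg _ _).le⟩
  have h3 : ∀ᶠ e : ℂ × E in 𝓝 (Y.ψ x, 0),
      ∀ r ∈ (∏ x' ∈ Y.fib (Y.ψ x), D.fam φ x' (Y.ψ x, 0)).roots.toFinset,
        (D.fam φ x (Y.ψ x, 0)).eval r ≠ 0 → (D.fam φ x e).eval (y r e) ≠ 0 :=
    (Finset.eventually_all _).2 fun r _ => by
      by_cases hr : (D.fam φ x (Y.ψ x, 0)).eval r = 0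
      · exact Eventually.of_forall fun _ h => absurd hr h
      · exact ((hb.tend r).eventually ((hG.an r).continuousAt.eventually_ne hr)).mono
          fun e he _ => he
  filter_upwards [hb.2, h3] with e a1 a2
  refine (Finset.card_le_card (t := (D.fam φ x (Y.ψ x, 0)).roots.toFinset.image fun r => y r e)
    fun z hz => ?_).trans Finset.card_image_le
  have hz' := isRoot_of_mem_roots (Multiset.mem_toFinset.1 hz)
  obtain ⟨r, hr, rfl⟩ := (a1 z).1 (Multiset.mem_toFinset.2 ((mem_roots (mo e).ne_zero).2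
    (hz'.dvd (Finset.dvd_prod_of_mem _ (Y.mem_self x)))))
  exact Finset.mem_image_of_mem _ (Multiset.mem_toFinset.2 ((mem_roots (mon_monic _ _).ne_zero).2
    (not_not.1 fun h => a2 r hr h hz')))

/-- the branches `y x r` -/
structure Bs (D : SD Y V n) (φ : E → V) (Z : Finset ℂ) (y : S → ℂ → ℂ × E → ℂ) : Prop where
  sub : Y.Z ⊆ Z
  an : ∀ x, Y.ψ x ∉ Z → ∀ r, AnalyticAt ℂ (y x r) (Y.ψ x, 0) ∧ y x r (Y.ψ x, 0) = r
  ev : ∀ x, Y.ψ x ∉ Z → ∀ᶠ e in 𝓝 (Y.ψ x, (0 : E)), D.fam φ x e =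
    ∏ r ∈ (D.P (φ 0) x).roots.toFinset, (X - C (y x r e)) ^ (D.P (φ 0) x).rootMultiplicity r

theorem Disc.bs (hq : D.Disc φ q δ N) (hφ : AnalyticAt ℂ φ 0) :
    ∃ y, Bs D φ (q 0).roots.toFinset y := by
  have key := fun x (hx : Y.ψ x ∉ (q 0).roots.toFinset) => loc (ℂ × E) (D.fam φ x) (Y.ψ x, 0) n
    (D.an_fam hφ x) ((hq.nr_le hφ hx).mono fun e he => ⟨mon_monic _ _, mon_deg _ _, he⟩)
  simp only [fam_self] at key
  choose! y y1 y2 using key
  exact ⟨y, hq.sub, y1, y2⟩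

variable {Z : Finset ℂ} {y : S → ℂ → ℂ × E → ℂ} {x : S}

theorem Bs.bra (h : Bs D φ Z y) (hx : Y.ψ x ∉ Z) :
    Bra (fun e => (D.fam φ x e).roots.toFinset) (Y.ψ x, 0) (y x) :=
  bra_of (fun r => ⟨(h.an x hx r).1.continuousAt, (h.an x hx r).2⟩)
    (by simpa only [fam_self] using h.ev x hx)

theorem Bs.root (h : Bs D φ Z y) (hx : Y.ψ x ∉ Z) : ∀ᶠ e in 𝓝 (Y.ψ x, (0 : E)), ∀ z,
    (D.fam φ x e).IsRoot z ↔ ∃ r, (D.P (φ 0) x).IsRoot r ∧ y x r e = z :=
  (h.bra hx).2.mono fun e he z => by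
    have := he z
    simp only [fam_self, Multiset.mem_toFinset] at this
    rw [mem_roots (p := D.fam φ x e) (mon_monic _ _).ne_zero] at this
    simpa only [mem_roots (p := D.P (φ 0) x) (mon_monic _ _).ne_zero] using this

theorem tend_inl (t : ℂ) : Tendsto (fun s : ℂ => (s, (0 : E))) (𝓝 t) (𝓝 (t, 0)) :=
  (continuous_id.prodMk continuous_const).tendsto t

/-- compatibility of the branches -/
theorem Bs.uq (h : Bs D φ Z y) (hx : Y.ψ x ∉ Z) {r : ℂ} (hr : (D.P (φ 0) x).IsRoot r) :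
    ∀ᶠ t in 𝓝 (Y.ψ x), t ∉ Z ∧ (D.P (φ 0) (Y.σ x t)).IsRoot (y x r (t, 0)) ∧
      y (Y.σ x t) (y x r (t, 0)) =ᶠ[𝓝 (t, 0)] y x r ∧
      (D.P (φ 0) (Y.σ x t)).rootMultiplicity (y x r (t, 0)) = (D.P (φ 0) x).rootMultiplicity r := by
  filter_upwards [ev_notMem Z hx, Y.sec x,
    (tend_inl _).eventually (h.root hx).eventually_nhds, (tend_inl _).eventually (h.ev x hx),
    (tend_inl _).eventually (h.an x hx r).1.eventually_analyticAt,
    (tend_inl _).eventually (ev_inj (fun r => ⟨(h.an x hx r).1.continuousAt, (h.an x hx r).2⟩)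
      (D.P (φ 0) x).roots.toFinset)] with t a1 a2 a3 a4 a5 a6
  refine ⟨a1, (a3.self_of_nhds _).2 ⟨r, hr, rfl⟩, ?_, ?_⟩
  · have b1 := h.bra (x := Y.σ x t) (by rwa [a2.1])
    rw [a2.1] at b1
    refine (b1.eq a5.continuousAt ?_).symm
    filter_upwards [a3, (continuous_fst.tendsto (t, (0 : E))).eventually a2.2] with e c1 c2
    rw [Multiset.mem_toFinset, mem_roots (p := D.fam φ _ e) (mon_monic _ _).ne_zero, fam, c2]
    exact (c1 _).2 ⟨r, hr, rfl⟩
  · have e : D.P (φ 0) (Y.σ x t) = _ := a4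
    rw [e]
    exact rm_prod a6 _ (Multiset.mem_toFinset.2 ((mem_roots (mon_monic _ _).ne_zero).2 hr))

end SD

end Vale.Agent.P275DL
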