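import Vale.Agent.P275DL.Form1
import Vale.Agent.P275DL.Defs2

/-!
# P275, block DL: the spectral cover and the differentials of an equisingular family
-/

set_option linter.unusedSectionVars false

open scoped Topology ContDiff
open Set Filter Metric Polynomial Bornology
open Vale.Agent.P275LL

noncomputable section

namespace Vale.Agent.P275DL

namespace SD

variable {S V E : Type} {Y : Cov S} [NormedAddCommGroup V] [NormedSpace ℂ V] [FiniteDimensional ℂ V]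
  {n : ℕ} {D : SD Y V n} [NormedAddCommGroup E] [NormedSpace ℂ E] [CompleteSpace E] {φ : E → V}
  {Z : Finset ℂ} {y : S → ℂ → ℂ × E → ℂ} {x : S}

theorem mem_rt {v : V} {r : ℂ} : r ∈ (D.P v x).roots.toFinset ↔ (D.P v x).IsRoot r := by
  rw [Multiset.mem_toFinset, mem_roots (p := D.P v x) (mon_monic _ _).ne_zero]

/-- the points of the spectral cover -/
abbrev Pt (D : SD Y V n) (v : V) (Z : Finset ℂ) : Type :=
  {p : S × ℂ // Y.ψ p.1 ∉ Z ∧ (D.P v p.1).IsRoot p.2}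

open Classical in
/-- the sheets -/
def sh (D : SD Y V n) (φ : E → V) (Z : Finset ℂ) (y : S → ℂ → ℂ × E → ℂ) (p : D.Pt (φ 0) Z)
    (t : ℂ) : D.Pt (φ 0) Z :=
  if h : Y.ψ (Y.σ p.1.1 t) ∉ Z ∧ (D.P (φ 0) (Y.σ p.1.1 t)).IsRoot (y p.1.1 p.1.2 (t, 0)) then
    ⟨(Y.σ p.1.1 t, y p.1.1 p.1.2 (t, 0)), h⟩ else p

open Classical in
/-- the fibres -/
def fb (D : SD Y V n) (v : V) (Z : Finset ℂ) (t : ℂ) : Finset (D.Pt v Z) :=
  ((Y.fib t).biUnion fun x => (D.P v x).roots.toFinset.image (Prod.mk x)).subtype _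

theorem mem_fb {v : V} {p : D.Pt v Z} {t : ℂ} : p ∈ D.fb v Z t ↔ Y.ψ p.1.1 = t := by
  classical
  simp only [fb, Finset.mem_subtype, Finset.mem_biUnion, Finset.mem_image, Y.mem]
  exact ⟨fun ⟨x, h1, r, _, h2⟩ => by rw [← h2]; exact h1,
    fun h => ⟨_, h, _, mem_rt.2 p.2.2, rfl⟩⟩

theorem Bs.sh_ev (h : Bs D φ Z y) (p : D.Pt (φ 0) Z) : ∀ᶠ t in 𝓝 (Y.ψ p.1.1),
    (D.sh φ Z y p t).1 = (Y.σ p.1.1 t, y p.1.1 p.1.2 (t, 0)) := by
  filter_upwards [h.uq p.2.1 p.2.2, Y.sec p.1.1] with t a1 a2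
  rw [sh, dif_pos ⟨by rw [a2.1]; exact a1.1, a1.2.1⟩]

/-- the spectral cover -/
def Bs.cov (h : Bs D φ Z y) : Cov (D.Pt (φ 0) Z) where
  Z := Z
  ψ p := Y.ψ p.1.1
  fib := D.fb (φ 0) Z
  σ := D.sh φ Z y
  mem _ _ := mem_fb
  nz p := p.2.1
  self p := Subtype.ext (by rw [(h.sh_ev p).self_of_nhds, Y.self, (h.an _ p.2.1 _).2])
  sec p := by
    filter_upwards [(h.sh_ev p).eventually_nhds, h.uq p.2.1 p.2.2, Y.sec p.1.1] with t a1 a2 a3
    have b1 := h.sh_ev (D.sh φ Z y p t)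
    rw [a1.self_of_nhds] at b1 ⊢
    simp only [a3.1] at b1
    refine ⟨a3.1, ?_⟩
    filter_upwards [b1, a1, a3.2, (tend_inl t).eventually a2.2.2.1] with s c1 c2 c3 c4
    exact Subtype.ext (by rw [c1, c2, c3, c4])
  bij t₀ ht := by
    have h1 : ∀ᶠ t in 𝓝 t₀, ∀ p ∈ D.fb (φ 0) Z t₀,
        (D.sh φ Z y p t).1 = (Y.σ p.1.1 t, y p.1.1 p.1.2 (t, 0)) :=
      (Finset.eventually_all _).2 fun p hp => mem_fb.1 hp ▸ h.sh_ev p
    have h2 : ∀ᶠ t in 𝓝 t₀, ∀ x ∈ Y.fib t₀,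
        InjOn (fun r => y x r (t, 0)) (D.P (φ 0) x).roots.toFinset ∧ ∀ z,
          (D.fam φ x (t, 0)).IsRoot z ↔ ∃ r, (D.P (φ 0) x).IsRoot r ∧ y x r (t, 0) = z :=
      (Finset.eventually_all _).2 fun x hx => by
        obtain rfl := Cov.ψ_of hx
        exact (tend_inl _).eventually
          ((ev_inj (fun r => ⟨(h.an x ht r).1.continuousAt, (h.an x ht r).2⟩) _).and (h.root ht))
    filter_upwards [h1, h2, Y.ev_fib fun h' => ht (h.sub h')] with t a1 a2 a3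
    refine ⟨fun p hp => mem_fb.2 ?_, fun p hp p' hp' e => ?_, fun p hp => ?_⟩
    · rw [a1 p hp]
      exact (a3.2.1 _ ((Y.mem _ _).2 (mem_fb.1 hp))).1
    · have e1 : (D.sh φ Z y p t).1 = (D.sh φ Z y p' t).1 := congrArg _ e
      rw [a1 p hp, a1 p' hp', Prod.mk.injEq] at e1
      have m1 := (Y.mem _ _).2 (mem_fb.1 hp)
      have e2 : p.1.1 = p'.1.1 := a3.2.2.injOn m1 ((Y.mem _ _).2 (mem_fb.1 hp')) e1.1
      refine Subtype.ext (Prod.ext e2 ((a2 _ m1).1 (mem_rt.2 p.2.2) (mem_rt.2 (e2 ▸ p'.2.2)) ?_))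
      exact e1.2.trans (by rw [e2])
    · obtain ⟨x, hx, e⟩ := a3.2.2.surjOn ((Y.mem _ _).2 (mem_fb.1 hp))
      have e' : Y.σ x t = p.1.1 := e
      obtain ⟨r, r1, r2⟩ := ((a2 x hx).2 p.1.2).1 (by rw [fam, e']; exact p.2.2)
      have m : (⟨(x, r), by rw [Cov.ψ_of hx]; exact ht, r1⟩ : D.Pt (φ 0) Z) ∈ D.fb (φ 0) Z t₀ :=
        mem_fb.2 (Cov.ψ_of hx)
      exact ⟨_, m, Subtype.ext ((a1 _ m).trans (Prod.ext e' r2))⟩
  bd := by
    classical
    obtain ⟨e, he⟩ := Y.bd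
    refine ⟨e * n, fun t => ?_⟩
    rw [fb, Finset.card_subtype]
    refine (Finset.card_filter_le _ _).trans ((Finset.card_biUnion_le_card_mul _ _ n
      fun x _ => ?_).trans (Nat.mul_le_mul_right _ (he t)))
    exact Finset.card_image_le.trans ((Multiset.toFinset_card_le _).trans
      ((card_roots' _).trans (mon_deg _ _).le))

open Classical in
theorem cl_prod {M : Type} [CommMonoid M] {v : V} (hx : Y.ψ x ∉ Z) (g : S × ℂ → M) :
    ∏ q ∈ D.fb v Z (Y.ψ x) with q.1.1 = x, g q.1 = ∏ r ∈ (D.P v x).roots.toFinset, g (x, r) := by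
  refine Finset.prod_bij (fun q _ => q.1.2) (fun q hq => ?_) (fun q hq q' hq' e => ?_)
    (fun r hr => ⟨⟨(x, r), hx, mem_rt.1 hr⟩, Finset.mem_filter.2 ⟨mem_fb.2 rfl, rfl⟩, rfl⟩)
    fun q hq => ?_
  · exact mem_rt.2 ((Finset.mem_filter.1 hq).2 ▸ q.2.2)
  · exact Subtype.ext (Prod.ext
      ((Finset.mem_filter.1 hq).2.trans (Finset.mem_filter.1 hq').2.symm) e)
  · rw [← (Finset.mem_filter.1 hq).2]

open Classical in
theorem cl_sum {M : Type} [AddCommMonoid M] {v : V} (hx : Y.ψ x ∉ Z) (g : S × ℂ → M) :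
    ∑ q ∈ D.fb v Z (Y.ψ x) with q.1.1 = x, g q.1 = ∑ r ∈ (D.P v x).roots.toFinset, g (x, r) :=
  cl_prod (M := Multiplicative M) hx g

/-- the multiplicities -/
def Bs.wt (h : Bs D φ Z y) : Wt h.cov S n where
  ρ p := p.1.1
  m p := (D.P (φ 0) p.1.1).rootMultiplicity p.1.2
  pos p := (rootMultiplicity_pos (mon_monic _ _).ne_zero).2 p.2.2
  lc p := by
    filter_upwards [h.sh_ev p, h.uq p.2.1 p.2.2] with t a1 a2
    exact (congrArg (fun q : S × ℂ => (D.P (φ 0) q.1).rootMultiplicity q.2) a1).trans a2.2.2.2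
  cmp p q e := by
    have e' : Y.ψ p.1.1 = Y.ψ q.1.1 := e
    filter_upwards [h.sh_ev p, e' ▸ h.sh_ev q, Y.bij _ (Y.nz p.1.1)] with t a1 a2 a3
    have b1 : (h.cov.σ p t).1.1 = Y.σ p.1.1 t := congrArg Prod.fst a1
    have b2 : (h.cov.σ q t).1.1 = Y.σ q.1.1 t := congrArg Prod.fst a2
    rw [b1, b2]
    exact ⟨fun e => a3.injOn (Y.mem_self _) ((Y.mem _ _).2 e'.symm) e, fun e => by rw [e]⟩
  sum p := (cl_sum p.2.1 fun q => (D.P (φ 0) q.1).rootMultiplicity q.2).trans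
    ((sum_mult _).trans (mon_deg _ _))

theorem Bs.spec (h : Bs D φ Z y) : D.Spec (φ 0) h.cov h.wt fun p => p.1.2 where
  sub := h.sub
  ψ _ := rfl
  σ p := (h.sh_ev p).mono fun _ a => congrArg Prod.fst a
  hl p := (AnalyticAt.comp (f := fun t : ℂ => (t, (0 : E))) (h.an _ p.2.1 p.1.2).1
    (analyticAt_id.prod analyticAt_const)).congr
      ((h.sh_ev p).mono fun _ a => (congrArg Prod.snd a).symm)
  inj _ _ e1 e2 := Subtype.ext (Prod.ext e1 e2)
  eq _ hx := (prod_mult (mon_monic _ _)).trans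
    (cl_prod hx fun q => (X - C q.2) ^ (D.P (φ 0) q.1).rootMultiplicity q.2).symm

/-- the differentials -/
def df (D : SD Y V n) (φ : E → V) (Z : Finset ℂ) (y : S → ℂ → ℂ × E → ℂ) :
    E →ₗ[ℂ] D.Pt (φ 0) Z → ℂ := LinearMap.pi fun p =>
  (fderiv ℂ (y p.1.1 p.1.2) (Y.ψ p.1.1, 0)).toLinearMap ∘ₗ LinearMap.inr ℂ ℂ E

theorem df_apply (v : E) (p : D.Pt (φ 0) Z) :
    D.df φ Z y v p = fderiv ℂ (y p.1.1 p.1.2) (Y.ψ p.1.1, 0) (0, v) := rfl

theorem has_line (t : ℂ) (v : E) : HasDerivAt (fun τ : ℂ => (t, τ • v)) (0, v) 0 := by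
  have := (hasDerivAt_const (0 : ℂ) t).prodMk ((hasDerivAt_id (0 : ℂ)).smul_const v)
  rwa [one_smul] at this

theorem tend_line (t : ℂ) (v : E) : Tendsto (fun τ : ℂ => (t, τ • v)) (𝓝 0) (𝓝 (t, 0)) := by
  have := (has_line t v).continuousAt.tendsto
  rwa [zero_smul] at this

theorem Bs.has (h : Bs D φ Z y) (hx : Y.ψ x ∉ Z) (r : ℂ) (v : E) :
    HasDerivAt (fun τ : ℂ => y x r (Y.ψ x, τ • v)) (fderiv ℂ (y x r) (Y.ψ x, 0) (0, v)) 0 :=
  HasFDerivAt.comp_hasDerivAt_of_eq 0 (h.an x hx r).1.differentiableAt.hasFDerivAt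
    (has_line _ v) (by rw [zero_smul])

theorem Bs.df_hl (h : Bs D φ Z y) (v : E) : h.cov.Hl (D.df φ Z y v) := fun p => by
  have a := AnalyticAt.comp (f := fun t : ℂ => (t, (0 : E))) (h.an _ p.2.1 p.1.2).1.fderiv
    (analyticAt_id.prod analyticAt_const)
  refine (((ContinuousLinearMap.apply ℂ ℂ ((0 : ℂ), v)).analyticAt _).comp a).congr ?_
  filter_upwards [h.sh_ev p, h.uq p.2.1 p.2.2, Y.sec p.1.1] with t a1 a2 a3
  have e : D.df φ Z y v (h.cov.σ p t) = _ :=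
    congrArg (fun q : S × ℂ => fderiv ℂ (y q.1 q.2) (Y.ψ q.1, 0) (0, v)) a1
  rw [e]
  simp only [a3.1, a2.2.2.1.fderiv_eq]
  rfl

theorem Bs.df_tr (h : Bs D φ Z y) (hn : 0 < n) (v : E) (t : ℂ) (x : S) :
    ∑ q ∈ h.wt.cl t x, (h.wt.m q : ℂ) * D.df φ Z y v q = 0 := by
  classical
  rcases (h.wt.cl t x).eq_empty_or_nonempty with e | ⟨p, hp⟩
  · rw [e, Finset.sum_empty]
  have hp' := Finset.mem_filter.1 hp
  obtain rfl : p.1.1 = x := hp'.2
  obtain rfl : Y.ψ p.1.1 = t := mem_fb.1 hp'.1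
  refine (cl_sum p.2.1 fun q => ((D.P (φ 0) q.1).rootMultiplicity q.2 : ℂ) *
    fderiv ℂ (y q.1 q.2) (Y.ψ q.1, 0) (0, v)).trans ?_
  refine (HasDerivAt.fun_sum fun r _ => (h.has p.2.1 r v).const_mul _).unique
    ((hasDerivAt_const (0 : ℂ) (0 : ℂ)).congr_of_eventuallyEq ?_)
  filter_upwards [(tend_line _ v).eventually (h.ev _ p.2.1)] with τ a
  have e := congrArg nextCoeff a
  rw [Monic.nextCoeff_prod _ _ fun r _ => (monic_X_sub_C _).pow _, fam, P,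
    nextCoeff_of_natDegree_pos (by rwa [mon_deg]), mon_deg, mon_coeff, if_neg (by omega),
    if_pos (by omega), D.tr0] at e
  simp only [(monic_X_sub_C _).nextCoeff_pow, nextCoeff_X_sub_C, nsmul_eq_mul, mul_neg,
    Finset.sum_neg_distrib, Pi.zero_apply, add_zero] at e
  exact neg_eq_zero.1 e.symm

theorem Bs.df_inj (h : Bs D φ Z y) (hφ : AnalyticAt ℂ φ 0)
    (hi : Function.Injective (fderiv ℂ φ 0)) : Function.Injective (D.df φ Z y) := by
  refine (injective_iff_map_eq_zero _).2 fun v hv => hi ?_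
  rw [map_zero]
  have l : HasDerivAt (fun τ : ℂ => φ (τ • v)) (fderiv ℂ φ 0 v) 0 := by
    have := (hasDerivAt_id (0 : ℂ)).smul_const v
    rw [one_smul] at this
    exact HasFDerivAt.comp_hasDerivAt_of_eq 0 hφ.differentiableAt.hasFDerivAt this
      (zero_smul ℂ v).symm
  have key : ∀ x, Y.ψ x ∉ Z → ∀ k < n, D.c k (fderiv ℂ φ 0 v) x = 0 := fun x hx k hk => by
    have z : (∑ k ∈ Finset.range n, C (D.c k (fderiv ℂ φ 0 v) x) * X ^ k : ℂ[X]) = 0 := by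
      refine Polynomial.funext fun z => ?_
      have d1 : HasDerivAt (fun τ : ℂ => z ^ n + ∑ k ∈ Finset.range n, D.c k (φ (τ • v)) x * z ^ k)
          (∑ k ∈ Finset.range n, D.c k (fderiv ℂ φ 0 v) x * z ^ k) 0 :=
        (HasDerivAt.fun_sum fun k _ =>
          ((D.cL k x).hasFDerivAt.comp_hasDerivAt 0 l).mul_const _).const_add _
      have d2 := HasDerivAt.fun_finsetProd (u := (D.P (φ 0) x).roots.toFinset) fun r hr =>
        ((h.has hx r v).const_sub z).fun_pow ((D.P (φ 0) x).rootMultiplicity r)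
      have e : (fun τ : ℂ => z ^ n + ∑ k ∈ Finset.range n, D.c k (φ (τ • v)) x * z ^ k) =ᶠ[𝓝 0]
          fun τ => ∏ r ∈ (D.P (φ 0) x).roots.toFinset,
            (z - y x r (Y.ψ x, τ • v)) ^ (D.P (φ 0) x).rootMultiplicity r := by
        filter_upwards [(tend_line _ v).eventually (h.ev _ hx)] with τ a
        have := congrArg (eval z) a
        rw [fam_self, P, mon_eval, eval_prod] at this
        simpa only [eval_pow, eval_sub, eval_X, eval_C] using this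
      have e2 := d1.unique (d2.congr_of_eventuallyEq e)
      simp only [eval_finsetSum, eval_mul, eval_C, eval_pow, eval_X, eval_zero]
      refine e2.trans (Finset.sum_eq_zero fun r hr => ?_)
      have : fderiv ℂ (y x r) (Y.ψ x, 0) (0, v) = 0 := congrFun hv ⟨(x, r), hx, mem_rt.1 hr⟩
      rw [this, neg_zero, mul_zero, smul_zero]
    have := congrArg (fun p => p.coeff k) z
    simpa [finsetSum_coeff, coeff_C_mul, coeff_X_pow, hk] using this
  refine D.inj _ fun k hk => funext fun x => ?_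
  have c := (D.hl k (fderiv ℂ φ 0 v) x).continuousAt.tendsto
  rw [Y.self] at c
  refine tendsto_nhds_unique (l := 𝓝[≠] (Y.ψ x)) (c.mono_left nhdsWithin_le_nhds)
    (tendsto_const_nhds.congr' ?_)
  filter_upwards [ev_notMem' Z (Y.ψ x), nhdsWithin_le_nhds (Y.sec x)] with t a1 a2
  exact (key _ (by rwa [a2.1]) k hk).symm

theorem Bs.db (h : Bs D φ Z y) {v : E} {b : ℝ} (p : D.Pt (φ 0) Z) (hb : D.Db φ v p.1.1 b) :
    ‖D.df φ Z y v p‖ ≤ b := by
  rw [df_apply, ← (h.has p.2.1 p.1.2 v).deriv]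
  refine hb _ (AnalyticAt.comp_of_eq (f := fun τ : ℂ => (Y.ψ p.1.1, τ • v)) (h.an _ p.2.1 p.1.2).1
    (analyticAt_const.prod (analyticAt_id.smul analyticAt_const)) (by rw [zero_smul])) ?_
  filter_upwards [(tend_line _ v).eventually (h.root p.2.1)] with τ a
  rw [← fam_self]
  exact (a _).2 ⟨_, p.2.2, rfl⟩

end SD

theorem form (hG : GRW) : FORM := by
  intro S V Y _ _ _ n D d φ q δ N hn hφ hi hq
  obtain ⟨y, h⟩ := hq.bs hφ
  refine ⟨_, h.cov, h.wt, _, D.df φ _ y, h.spec, h.df_inj hφ hi, h.df_hl, fun v => ?_, h.df_tr hn⟩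
  obtain ⟨κ, B, k1, k2, k3⟩ := hG S V Y n D d φ q δ N hn hφ hq v
  refine ⟨κ, k1, B, fun t₀ ht => (k2 t₀ ht).mono fun t a p hp => ?_, k3.mono fun t a p hp => ?_⟩ <;>
  · rw [pow_one]
    exact h.db p (a _ ((Y.mem _ _).2 (SD.mem_fb.1 hp)))

end Vale.Agent.P275DL
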