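import Vale.Agent.P275ZA.Zar
import Vale.Agent.P275LL.Loc
import Vale.Agent.P275GE.Gens

/-!
# P275, block DL: smooth points and the dimension of a Zariski closure
-/

open scoped Topology nonZeroDivisors
open Set Filter Polynomial
open Vale.Agent.P275ST (Pol IsZar ZarLE)
open Vale.Agent.P275ZA Vale.Agent.P275LL

noncomputable section

namespace Vale.Agent.P275DL

/-- a primitive element of a finite extension of domains -/
theorem prim_el {A R : Type} [CommRing A] [IsDomain A] [CharZero A] [CommRing R] [IsDomain R]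
    [Algebra A R] [Module.Finite A R] [FaithfulSMul A R] :
    ∃ θ : R, ∀ r : R, ∃ δ : A, δ ≠ 0 ∧ ∃ q : A[X], algebraMap A R δ * r = aeval θ q := by
  let K := FractionRing A
  let L := FractionRing R
  let _ : Algebra K L := FractionRing.liftAlgebra A L
  have := FractionRing.isScalarTower_liftAlgebra A L
  have : FiniteDimensional K L := inferInstance
  obtain ⟨α, hα⟩ := Field.exists_primitive_element K L
  obtain ⟨x, s, hs, rfl⟩ := IsFractionRing.div_surjective (A := R) α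
  obtain ⟨a, ha, s', hs'⟩ := (Algebra.IsAlgebraic.isAlgebraic (R := A) s).exists_nonzero_dvd hs
  have iA : Function.Injective (algebraMap A K) := IsFractionRing.injective A K
  have iR : Function.Injective (algebraMap R L) := IsFractionRing.injective R L
  have s0 : algebraMap R L s ≠ 0 := (map_ne_zero_iff _ iR).2 (nonZeroDivisors.ne_zero hs)
  have a0 : algebraMap A K a ≠ 0 := (map_ne_zero_iff _ iA).2 ha
  have e : algebraMap R L x / algebraMap R L s = (algebraMap A K a)⁻¹ • algebraMap R L (x * s') := by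
    rw [eq_inv_smul_iff₀ a0, Algebra.smul_def, ← IsScalarTower.algebraMap_apply,
      IsScalarTower.algebraMap_apply A R L, hs', map_mul, map_mul, mul_assoc,
      mul_comm, mul_assoc, div_mul_cancel₀ _ s0, mul_comm]
  refine ⟨x * s', fun r => ?_⟩
  have h1 : algebraMap R L r ∈ Algebra.adjoin K {algebraMap R L (x * s')} := by
    have h2 : algebraMap R L r ∈ Algebra.adjoin K {algebraMap R L x / algebraMap R L s} := by
      rw [← IntermediateField.adjoin_simple_toSubalgebra_of_isAlgebraic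
        (Algebra.IsAlgebraic.isAlgebraic _), hα]
      trivial
    refine Algebra.adjoin_le ?_ h2
    rintro _ rfl
    rw [e]
    exact Subalgebra.smul_mem _ (Algebra.self_mem_adjoin_singleton K _) _
  rw [Algebra.adjoin_singleton_eq_range_aeval] at h1
  obtain ⟨p, hp⟩ := h1
  obtain ⟨b, hb, h3⟩ := IsLocalization.integerNormalization_spec A⁰ p
  refine ⟨b, nonZeroDivisors.ne_zero hb, IsLocalization.integerNormalization A⁰ p, iR ?_⟩
  have hp' : aeval (algebraMap R L (x * s')) p = algebraMap R L r := hp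
  rw [map_mul, ← aeval_algebraMap_apply, ← aeval_map_algebraMap K, h3,
    ← IsScalarTower.algebraMap_apply, ← hp', ← algebraMap_smul K, map_smul, Algebra.smul_def,
    ← IsScalarTower.algebraMap_apply]

theorem an_mv {s : ℕ} (p : MvPolynomial (Fin s) ℂ) (x : Fin s → ℂ) :
    AnalyticAt ℂ (fun x => MvPolynomial.eval x p) x :=
  AnalyticOnNhd.eval_mvPolynomial p x (mem_univ _)

theorem fam_mv {s : ℕ} (q : (MvPolynomial (Fin s) ℂ)[X]) (x : Fin s → ℂ) :
    Fam (fun x => q.map (MvPolynomial.eval x)) x q.natDegree :=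
  ⟨fun k => by simpa only [coeff_map] using an_mv _ x,
    Eventually.of_forall fun _ => natDegree_map_le⟩

variable {V : Type} [NormedAddCommGroup V] [NormedSpace ℂ V] [FiniteDimensional ℂ V]

/-- smooth points -/
theorem smooth_pt {Y : Set V} (hY : IsZar Y) [IsDomain (Pol Y)] {s : ℕ}
    (g : MvPolynomial (Fin s) ℂ →ₐ[ℂ] Pol Y) (hi : Function.Injective g) (hf : g.Finite) :
    ∃ H : Pol Y, H ≠ 0 ∧ ∀ a : Y, H.1 a ≠ 0 → ∃ φ : (Fin s → ℂ) → V, AnalyticAt ℂ φ 0 ∧
      (∀ᶠ T in 𝓝 0, φ T ∈ Y) ∧ φ 0 = a ∧ Function.Injective (fderiv ℂ φ 0) := by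
  let _ := g.toRingHom.toAlgebra
  have : Module.Finite (MvPolynomial (Fin s) ℂ) (Pol Y) := hf
  have : FaithfulSMul (MvPolynomial (Fin s) ℂ) (Pol Y) :=
    (faithfulSMul_iff_algebraMap_injective _ _).2 hi
  have ga : ∀ p, algebraMap (MvPolynomial (Fin s) ℂ) (Pol Y) p = g p := fun _ => rfl
  obtain ⟨θ, hθ⟩ := prim_el (A := MvPolynomial (Fin s) ℂ) (R := Pol Y)
  choose δ δ0 q hq using fun j => hθ (lin Y (crd V j))
  have hI : IsIntegral (MvPolynomial (Fin s) ℂ) θ := Algebra.IsIntegral.isIntegral θ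
  set P := minpoly (MvPolynomial (Fin s) ℂ) θ with hP
  have hd : aeval θ (derivative P) ≠ 0 := fun h => by
    have h1 := minpoly.isIntegrallyClosed_dvd hI h
    have h2 := minpoly.natDegree_pos hI
    have h3 : derivative P = 0 := eq_zero_of_dvd_of_natDegree_lt h1 (natDegree_derivative_lt h2.ne')
    exact h2.ne' (derivative_eq_zero.1 h3)
  let v : (Fin s → ℂ) × ℂ → V := fun e => ∑ j, (((q j).map (MvPolynomial.eval e.1)).eval e.2 /
    MvPolynomial.eval e.1 (δ j)) • Module.finBasis ℂ V j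
  have hv : ∀ e j, crd V j (v e) =
      ((q j).map (MvPolynomial.eval e.1)).eval e.2 / MvPolynomial.eval e.1 (δ j) := fun e j => by
    simp [v, crd, Finsupp.single_apply]
  have key : ∀ e : (Fin s → ℂ) × ℂ, (∀ j, MvPolynomial.eval e.1 (δ j) ≠ 0) →
      ∀ f : Pol (univ : Set V), ∃ (d : MvPolynomial (Fin s) ℂ) (r : (MvPolynomial (Fin s) ℂ)[X]),
        MvPolynomial.eval e.1 d ≠ 0 ∧ g d * ru Y f = aeval θ r ∧
        MvPolynomial.eval e.1 d * ev f (v e) = (r.map (MvPolynomial.eval e.1)).eval e.2 := by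
    intro e he f
    obtain ⟨f, rfl⟩ := aeval_surj univ f
    induction f using MvPolynomial.induction_on with
    | C c =>
      refine ⟨1, C (MvPolynomial.C c), by simp, ?_, by simp⟩
      rw [map_one, one_mul, MvPolynomial.aeval_C, AlgHom.commutes, aeval_C, ga]
      exact (g.commutes c).symm
    | add f f' hf hf' =>
      obtain ⟨d, r, a1, a2, a3⟩ := hf
      obtain ⟨d', r', b1, b2, b3⟩ := hf'
      refine ⟨d * d', C d' * r + C d * r', by rw [map_mul]; exact mul_ne_zero a1 b1, ?_, ?_⟩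
      · simp only [map_mul, map_add, aeval_C, ga, ← a2, ← b2]
        ring
      · simp only [map_mul, map_add, ev_add, Polynomial.map_add, Polynomial.map_mul, map_C,
          eval_add, eval_mul, eval_C, ← a3, ← b3]
        ring
    | mul_X f j hf =>
      obtain ⟨d, r, a1, a2, a3⟩ := hf
      refine ⟨d * δ j, r * q j, by rw [map_mul]; exact mul_ne_zero a1 (he j), ?_, ?_⟩
      · have : ru Y (lin univ (crd V j)) = lin Y (crd V j) := rfl
        simp only [map_mul, MvPolynomial.aeval_X, this, ← a2, ← hq j, ga]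
        ring
      · simp only [map_mul, MvPolynomial.aeval_X, ev_mul, ev_lin, hv, Polynomial.map_mul, eval_mul,
          ← a3]
        have := he j
        field_simp
  have key2 : ∀ e : (Fin s → ℂ) × ℂ, (∀ j, MvPolynomial.eval e.1 (δ j) ≠ 0) →
      (P.map (MvPolynomial.eval e.1)).eval e.2 = 0 → ∀ (f : Pol (univ : Set V)) p, ru Y f = g p →
        ev f (v e) = MvPolynomial.eval e.1 p := fun e he h0 f p hp => by
    obtain ⟨d, r, a1, a2, a3⟩ := key e he f
    obtain ⟨u, hu⟩ := minpoly.isIntegrallyClosed_dvd hI (p := r - C (d * p))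
      (by rw [map_sub, aeval_C, ga, map_mul, ← a2, hp, sub_self])
    have := congrArg (fun r => (r.map (MvPolynomial.eval e.1)).eval e.2) hu
    simp only [Polynomial.map_sub, Polynomial.map_mul, map_C, eval_sub, eval_mul, eval_C, ← hP, h0,
      zero_mul, ← a3, map_mul] at this
    exact mul_left_cancel₀ a1 (sub_eq_zero.1 this)
  choose F hF using fun i => rs_surj (subset_univ Y) (g (MvPolynomial.X i))
  refine ⟨g (∏ j, δ j) * aeval θ (derivative P), mul_ne_zero ((map_ne_zero_iff _ hi).2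
    (Finset.prod_ne_zero_iff.2 fun j _ => δ0 j)) hd, fun a ha => ?_⟩
  set x₀ : Fin s → ℂ := fun i => (g (MvPolynomial.X i)).1 a with hx
  have he : (evP a).comp g.toRingHom = MvPolynomial.eval x₀ := by
    refine MvPolynomial.ringHom_ext (fun c => ?_) fun i => ?_
    · rw [MvPolynomial.eval_C]
      exact congrArg (evP a) (g.commutes c)
    · rw [MvPolynomial.eval_X]
      rfl
  have he1 : ∀ p, evP a (g p) = MvPolynomial.eval x₀ p := fun p => RingHom.congr_fun he p
  have he2 : ∀ r : (MvPolynomial (Fin s) ℂ)[X],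
      evP a (aeval θ r) = (r.map (MvPolynomial.eval x₀)).eval (evP a θ) := fun r => by
    rw [aeval_def, hom_eval₂, eval_map, ← he]
    rfl
  have ha' : evP a (g (∏ j, δ j) * aeval θ (derivative P)) ≠ 0 := ha
  rw [map_mul, he1, he2, map_prod, mul_ne_zero_iff, Finset.prod_ne_zero_iff] at ha'
  obtain ⟨τ, t1, t2, t3⟩ := (fam_mv P x₀).ift (r := evP a θ)
    (by rw [← he2, hP, minpoly.aeval, map_zero]) (by rw [derivative_map]; exact ha'.2)
  have c0 : AnalyticAt ℂ (fun T : Fin s → ℂ => x₀ + T) 0 := analyticAt_const.add analyticAt_id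
  have c1 : AnalyticAt ℂ (fun T : Fin s → ℂ => (x₀ + T, τ (x₀ + T))) 0 :=
    c0.prod (t1.comp_of_eq c0 (add_zero _))
  have c2 : (x₀ + 0, τ (x₀ + 0)) = (x₀, evP a θ) := by rw [add_zero, t2]
  have c3 : Tendsto (fun T : Fin s → ℂ => (x₀ + T, τ (x₀ + T))) (𝓝 0) (𝓝 (x₀, evP a θ)) :=
    c2 ▸ c1.continuousAt.tendsto
  have c4 : ∀ᶠ T : Fin s → ℂ in 𝓝 0, (∀ j, MvPolynomial.eval (x₀ + T) (δ j) ≠ 0) ∧
      (P.map (MvPolynomial.eval (x₀ + T))).eval (τ (x₀ + T)) = 0 :=
    (eventually_all.2 fun j => ((an_mv (δ j) x₀).comp_of_eq c0 (add_zero _)).continuousAt.eventually_ne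
      (by simpa only [Function.comp, add_zero] using ha'.1 j (Finset.mem_univ _))).and
      ((c3.eventually t3).mono fun T h => h.2 rfl)
  have av : AnalyticAt ℂ v (x₀, evP a θ) := Finset.analyticAt_fun_sum _ fun j _ =>
    (((fam_mv (q j) x₀).an _).div (AnalyticAt.comp (f := Prod.fst) (x := (x₀, evP a θ))
      (an_mv (δ j) x₀) analyticAt_fst) (ha'.1 j (Finset.mem_univ _))).smul analyticAt_const
  have aφ : AnalyticAt ℂ (fun T : Fin s → ℂ => v (x₀ + T, τ (x₀ + T))) 0 := av.comp_of_eq c1 c2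
  refine ⟨_, aφ, c4.mono fun T h => isZar_iff.1 hY _ fun f hf => ?_, ?_, ?_⟩
  · simpa using key2 (x₀ + T, τ (x₀ + T)) h.1 h.2 f 0 (by rw [hf, map_zero])
  · refine (Module.finBasis ℂ V).ext_elem fun j => ?_
    have h1 := hv (x₀ + 0, τ (x₀ + 0)) j
    have h2 := congrArg (evP a) (hq j)
    rw [map_mul, ga, he1, he2] at h2
    rw [c2, ← h2, mul_div_cancel_left₀ _ (ha'.1 j (Finset.mem_univ _))] at h1
    rw [c2]
    exact h1
  · have d1 : DifferentiableAt ℂ (fun w i => ev (F i) w) (v (x₀ + 0, τ (x₀ + 0))) :=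
      differentiableAt_pi.2 fun i => (P275GE.an_pol (F i) _).differentiableAt
    have d2 := d1.hasFDerivAt.comp (0 : Fin s → ℂ) aφ.differentiableAt.hasFDerivAt
    have d3 : HasFDerivAt (fun T : Fin s → ℂ => x₀ + T) (ContinuousLinearMap.id ℂ _) 0 :=
      (hasFDerivAt_id _).const_add _
    have d4 := d2.unique (d3.congr_of_eventuallyEq (c4.mono fun T h => funext fun i => by
      simpa using key2 (x₀ + T, τ (x₀ + T)) h.1 h.2 (F i) _ (hF i)))
    exact Function.LeftInverse.injective (g := fderiv ℂ (fun w i => ev (F i) w) _)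
      fun T => ContinuousLinearMap.ext_iff.1 d4 T

theorem zdim : ZDIM := by
  intro V _ _ _ B t h
  suffices H : ∃ Z : Set V, ZarLE Z (t - 1) ∧ B ∩ univ ⊆ Z by simpa using H
  refine zar_ind (p := fun Y => ∃ Z : Set V, ZarLE Z (t - 1) ∧ B ∩ Y ⊆ Z) (fun Y hY ih => ?_)
    isZar_univ
  have sub : ∀ f : Pol (univ : Set V), ru Y f ≠ 0 →
      ∃ Z : Set V, ZarLE Z (t - 1) ∧ B ∩ (Y ∩ {v | ev f v = 0}) ⊆ Z := fun f hf =>
    ih _ (isZar_inter hY (isZar_zero f)) ⟨inter_subset_left, fun hs =>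
      hf (ru_eq_zero.2 fun y hy => (hs hy).2)⟩
  rcases Y.eq_empty_or_nonempty with rfl | hn
  · exact ⟨∅, zarLE_empty _, inter_subset_right⟩
  by_cases hd : ∀ f g : Pol Y, f * g = 0 → f = 0 ∨ g = 0
  swap
  · push Not at hd
    obtain ⟨f, g, h1, h2, h3⟩ := hd
    obtain ⟨f, rfl⟩ := rs_surj (subset_univ Y) f
    obtain ⟨g, rfl⟩ := rs_surj (subset_univ Y) g
    obtain ⟨Z, z1, z2⟩ := sub f h2
    obtain ⟨Z', z1', z2'⟩ := sub g h3
    refine ⟨Z ∪ Z', zarLE_union z1 z1', fun v hv => ?_⟩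
    have := ru_eq_zero.1 ((map_mul _ f g).trans h1) v hv.2
    rw [ev_mul, mul_eq_zero] at this
    exact this.imp (fun e => z2 ⟨hv.1, hv.2, e⟩) fun e => z2' ⟨hv.1, hv.2, e⟩
  have := nontrivial_pol hn
  have : NoZeroDivisors (Pol Y) := ⟨fun {a b} => hd a b⟩
  have : IsDomain (Pol Y) := NoZeroDivisors.to_isDomain _
  obtain ⟨s, g, g1, g2, g3⟩ := noether hn
  by_cases hs : s < t
  · exact ⟨Y, (zarLE_iff g3).2 ⟨hY, by omega⟩, inter_subset_right⟩
  obtain ⟨G, ⟨y, y1, y2⟩, hG⟩ := h Y hY this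
  obtain ⟨H, h1, h2⟩ := smooth_pt hY g g1 g2
  obtain ⟨H, rfl⟩ := rs_surj (subset_univ Y) H
  obtain ⟨Z, z1, z2⟩ := sub (G * H) (by
    rw [map_mul]
    exact mul_ne_zero (fun e => y2 (ru_eq_zero.1 e y y1)) h1)
  refine ⟨Z, z1, fun v hv => z2 ⟨hv.1, hv.2, ?_⟩⟩
  by_contra hc
  have hc' : ev G v * ev H v ≠ 0 := hc
  rw [mul_ne_zero_iff] at hc'
  obtain ⟨φ, a1, a2, a3, a4⟩ := h2 ⟨v, hv.2⟩ hc'.2
  exact hs (hG s φ a1 a2 (by rw [a3]; exact hc'.1) a4 (by rw [a3]; exact hv.1))

end Vale.Agent.P275DL
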