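import Vale.Agent.P275DL.Rank
import Vale.Agent.P275DL.Form2
import Vale.Agent.P275DL.Zd
import Vale.Agent.P275RB.Main
import Vale.Agent.P275GW.Main
import Vale.Agent.P275PL.Main

/-!
# P275, block DL: the delta inequality
-/

namespace Vale.Agent.P275DL

theorem rank' : RANK := rank P275RB.res P275RB.bnd

theorem form' : FORM := form P275GW.grw

/-- **The delta inequality.** -/
theorem delta : DELTA := delta_of rank' P275GE.gens form' zdim P275PL.plt

end Vale.Agent.P275DL
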