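import Vale.Agent.P275DL.Exa2
import Vale.Agent.P275DL.La

/-!
# P275, block DL: the rank bound
-/

set_option linter.unusedSectionVars false

open scoped Topology ContDiff ComplexConjugate ComplexOrder
open Set Filter Metric MeasureTheory Bornology
open Vale.Agent.P281Z.Hm

noncomputable section

namespace Vale.Agent.P275DL

theorem log_prod {ι : Type} {t : ℂ} (d : (ℂ → ℂ) → ℂ) (h1 : d (fun _ => 1) = 0)
    (hm : ∀ f g, DifferentiableAt ℝ f t → DifferentiableAt ℝ g t →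
      d (fun s => f s * g s) = d f * g t + f t * d g)
    (s : Finset ι) (f : ι → ℂ → ℂ) (m : ι → ℕ) (hf : ∀ i ∈ s, DifferentiableAt ℝ (f i) t)
    (h0 : ∀ i ∈ s, f i t ≠ 0) :
    d (fun x => ∏ i ∈ s, f i x ^ m i) =
      (∏ i ∈ s, f i t ^ m i) * ∑ i ∈ s, m i * (d (f i) / f i t) := by
  have hp : ∀ (g : ℂ → ℂ) (k : ℕ), DifferentiableAt ℝ g t → g t ≠ 0 →
      d (fun x => g x ^ k) = g t ^ k * (k * (d g / g t)) := fun g k hg g0 => by
    induction k with
    | zero => simpa using h1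
    | succ k ih =>
      simp only [pow_succ]
      rw [hm (fun x => g x ^ k) _ (hg.pow k) hg, ih]
      push_cast
      field_simp
  classical
  induction s using Finset.induction_on with
  | empty => simpa using h1
  | insert a s ha ih =>
    simp only [Finset.prod_insert ha, Finset.sum_insert ha]
    have f1 : ∀ i ∈ s, DifferentiableAt ℝ (f i) t := fun i hi => hf i (by simp [hi])
    rw [hm (fun x => f a x ^ m a) (fun x => ∏ i ∈ s, f i x ^ m i) ((hf a (by simp)).pow _)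
      (HasFDerivAt.finsetProd fun i hi => ((f1 i hi).pow (m i)).hasFDerivAt).differentiableAt,
      ih f1 fun i hi => h0 i (by simp [hi]), hp _ _ (hf a (by simp)) (h0 a (by simp))]
    ring

namespace Cov

variable {S : Type} {X : Cov S} {f g : S → ℂ}

theorem Gk.mono {κ : ℝ} {k : ℕ} (hf : X.Gk κ k f) {c : ℝ} (hc : 0 ≤ c)
    (h : ∀ p, ‖g p‖ ≤ c * ‖f p‖) : X.Gk κ k g := by
  obtain ⟨B, h1, h2⟩ := hf
  refine ⟨c * B, fun t₀ ht => (h1 t₀ ht).mono fun t a p hp => ?_, h2.mono fun t a p hp => ?_⟩ <;>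
  exact (h p).trans (by rw [mul_assoc]; exact mul_le_mul_of_nonneg_left (a p hp) hc)

theorem Gk.add_cs {κ : ℝ} {k : ℕ} (hf : X.Gk κ k f) (hg : X.Cs g 0) :
    X.Gk κ k fun p => f p + g p := by
  obtain ⟨B, h1, h2⟩ := hf
  obtain ⟨K, k1, k2, k3⟩ := hg
  refine ⟨B, fun t₀ ht => ?_, ?_⟩
  · filter_upwards [h1 t₀ ht, nhdsWithin_le_nhds
      (k1.isClosed.isOpen_compl.mem_nhds fun h => k2 t₀ h ht)] with t a1 a2 p hp
    rw [k3 p (by rwa [ψ_of hp]), add_zero]
    exact a1 p hp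
  · filter_upwards [h2, k1.isBounded] with t a1 a2 p hp
    rw [k3 p (by rwa [ψ_of hp]), add_zero]
    exact a1 p hp

theorem gk_zero (κ : ℝ) (k : ℕ) : X.Gk κ k fun _ => 0 :=
  ⟨0, fun _ _ => Eventually.of_forall fun _ _ _ => by simp,
    Eventually.of_forall fun _ _ _ => by simp⟩

theorem Cs.gr (hg : X.Cs g 0) : X.Gr g :=
  ⟨1, one_pos, by simpa only [zero_add] using (gk_zero 1 1).add_cs hg⟩

end Cov

namespace Wt

open Cov

variable {S T : Type} {X : Cov S} {n : ℕ} (w : Wt X T n) {a b a' b' F : S → ℂ}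

theorem mem_cl {t : ℂ} {x : T} {q : S} : q ∈ w.cl t x ↔ X.ψ q = t ∧ w.ρ q = x := by
  classical
  simp only [cl, Finset.mem_filter, X.mem]

theorem m_le (p : S) : w.m p ≤ n := by
  have e : ∑ q ∈ w.cl (X.ψ p) (w.ρ p), w.m q = n := w.sum p
  exact (Finset.single_le_sum (f := w.m) (fun _ _ => Nat.zero_le _) (w.mem_cl.2 ⟨rfl, rfl⟩)).trans
    e.le

theorem sm_m : X.Sm fun p => (w.m p : ℂ) := sm_lc fun p => (w.lc p).mono fun _ h => by rw [h]

theorem d_m (p : S) : X.dz (fun p => (w.m p : ℂ)) p = 0 ∧ X.db (fun p => (w.m p : ℂ)) p = 0 :=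
  dz_lc ((w.lc p).mono fun _ h => by rw [h])

/-- the norm -/
def N (F : S → ℂ) (p : S) : ℂ := ∏ q ∈ w.cl (X.ψ p) (w.ρ p), F q ^ w.m q

open Classical in
theorem N_ev (F : S → ℂ) (p : S) : (fun t => w.N F (X.σ p t)) =ᶠ[𝓝 (X.ψ p)]
    fun t => ∏ q ∈ w.cl (X.ψ p) (w.ρ p), F (X.σ q t) ^ w.m q := by
  have h1 : ∀ᶠ t in 𝓝 (X.ψ p), ∀ q ∈ X.fib (X.ψ p),
      (w.ρ (X.σ q t) = w.ρ (X.σ p t) ↔ w.ρ q = w.ρ p) ∧ w.m (X.σ q t) = w.m q :=
    (Finset.eventually_all _).2 fun q hq => ψ_of hq ▸ (w.cmp q p (ψ_of hq)).and (w.lc q)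
  filter_upwards [h1, X.prod_ev (M := ℂ) (X.nz p), X.sec p] with t a1 a2 a3
  simp only [N, cl, Finset.prod_filter]
  rw [a3.1, a2]
  exact Finset.prod_congr rfl fun q hq => if_congr (a1 q hq).1 (by rw [(a1 q hq).2]) rfl

theorem lo_N (hF : X.Lo F) : X.Lo (w.N F) := by
  refine ⟨fun p => ContDiffAt.congr_of_eventuallyEq (contDiffAt_prod fun q hq => ?_) (w.N_ev F p),
    fun p => Finset.prod_ne_zero_iff.2 fun q _ => pow_ne_zero _ (hF.2.1 q), ?_⟩
  · exact (w.mem_cl.1 hq).1 ▸ (hF.1 q).pow _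
  · obtain ⟨K, k1, k2, k3⟩ := hF.2.2
    exact ⟨K, k1, k2, fun p hp => Finset.prod_eq_one fun q hq => by
      rw [k3 q (by rwa [(w.mem_cl.1 hq).1]), one_pow]⟩

theorem log_N (hF : X.Lo F) (p : S) :
    X.dz (w.N F) p / w.N F p = ∑ q ∈ w.cl (X.ψ p) (w.ρ p), w.m q * (X.dz F q / F q) ∧
    X.db (w.N F) p / w.N F p = ∑ q ∈ w.cl (X.ψ p) (w.ρ p), w.m q * (X.db F q / F q) := by
  have e : ∀ q ∈ w.cl (X.ψ p) (w.ρ p), X.σ q (X.ψ p) = q := fun q hq => by
    rw [← (w.mem_cl.1 hq).1, X.self]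
  have d : ∀ q ∈ w.cl (X.ψ p) (w.ρ p), DifferentiableAt ℝ (fun t => F (X.σ q t)) (X.ψ p) :=
    fun q hq => (w.mem_cl.1 hq).1 ▸ hF.1.df q
  have e2 : ∏ q ∈ w.cl (X.ψ p) (w.ρ p), F (X.σ q (X.ψ p)) ^ w.m q = w.N F p :=
    Finset.prod_congr rfl fun q hq => by rw [e q hq]
  have h0 := (w.lo_N hF).2.1 p
  constructor
  · rw [Cov.dz, wd_congr (w.N_ev F p), log_prod (fun f => wd 1 f (X.ψ p)) (wd_const _ _ _)
      (fun f g hf hg => wd_cmul hf hg 1) _ _ _ d fun q _ => hF.2.1 _, e2, mul_div_cancel_left₀ _ h0]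
    exact Finset.sum_congr rfl fun q hq => by rw [e q hq, Cov.dz, (w.mem_cl.1 hq).1]
  · rw [Cov.db, wb_congr (w.N_ev F p), log_prod (fun f => wb 1 f (X.ψ p)) (wb_const _ _ _)
      (fun f g hf hg => wb_cmul hf hg 1) _ _ _ d fun q _ => hF.2.1 _, e2, mul_div_cancel_left₀ _ h0]
    exact Finset.sum_congr rfl fun q hq => by rw [e q hq, Cov.db, (w.mem_cl.1 hq).1]

/-- trace free -/
def Tf (a : S → ℂ) : Prop := ∀ t x, ∑ q ∈ w.cl t x, (w.m q : ℂ) * a q = 0

/-- the pairing of forms -/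
def I (a b a' b' : S → ℂ) : ℂ := X.int fun p => w.m p * (a p * b' p - b p * a' p)

theorem tf_log (F : w.Lp) :
    w.Tf (fun p => X.dz F.1 p / F.1 p) ∧ w.Tf fun p => X.db F.1 p / F.1 p := by
  have e : w.N F.1 = fun _ => 1 := funext fun p => F.2.2 _ _
  have k : ∀ t x, (∑ q ∈ w.cl t x, w.m q * (X.dz F.1 q / F.1 q) = 0) ∧
      ∑ q ∈ w.cl t x, w.m q * (X.db F.1 q / F.1 q) = 0 := fun t x => by
    rcases (w.cl t x).eq_empty_or_nonempty with h | ⟨p, hp⟩
    · simp [h]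
    · obtain ⟨rfl, rfl⟩ := w.mem_cl.1 hp
      have := w.log_N F.2.1 p
      rw [e, dz_const, db_const, zero_div] at this
      exact ⟨this.1.symm, this.2.symm⟩
  exact ⟨fun t x => (k t x).1, fun t x => (k t x).2⟩

theorem I_N (hF : X.Lo F) (ha : w.Tf a) (hb : w.Tf b) :
    w.I (fun p => X.dz (w.N F) p / w.N F p) (fun p => X.db (w.N F) p / w.N F p) a b = 0 := by
  classical
  refine integral_eq_zero_of_ae (Eventually.of_forall fun t => ?_)
  simp only [Pi.zero_apply]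
  rw [← Finset.sum_fiberwise_of_maps_to (g := w.ρ) (t := (X.fib t).image w.ρ)
    fun p hp => Finset.mem_image_of_mem _ hp]
  refine Finset.sum_eq_zero fun x _ => ?_
  have h : ∑ p ∈ w.cl t x, ((∑ q ∈ w.cl t x, w.m q * (X.dz F q / F q)) * (w.m p * b p) -
      (∑ q ∈ w.cl t x, w.m q * (X.db F q / F q)) * (w.m p * a p)) = 0 := by
    rw [Finset.sum_sub_distrib, ← Finset.mul_sum, ← Finset.mul_sum, ha, hb, mul_zero, mul_zero,
      sub_zero]
  refine Eq.trans (Finset.sum_congr rfl fun p hp => ?_) h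
  obtain ⟨rfl, rfl⟩ := w.mem_cl.1 hp
  rw [(w.log_N hF p).1, (w.log_N hF p).2]
  ring

theorem in_I (ha : X.Sm a) (hb : X.Sm b) (ca : X.Cs a 0) (cb : X.Cs b 0) (ha' : X.Sm a')
    (hb' : X.Sm b') : X.In fun p => w.m p * (a p * b' p - b p * a' p) :=
  (w.sm_m.mul ((ha.mul hb').sub (hb.mul ha'))).int
    (ca.op cb (fun p x y => w.m p * (x * b' p - y * a' p)) fun _ => by simp)

theorem lo_log (hF : X.Lo F) : X.Sm (fun p => X.dz F p / F p) ∧ X.Sm (fun p => X.db F p / F p) ∧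
    X.Cs (fun p => X.dz F p / F p) 0 ∧ X.Cs (fun p => X.db F p / F p) 0 :=
  ⟨hF.1.dz.div hF.1 hF.2.1, hF.1.db.div hF.1 hF.2.1,
    hF.2.2.dz.op1 (fun p x => x / F p) fun _ => zero_div _,
    hF.2.2.db.op1 (fun p x => x / F p) fun _ => zero_div _⟩

theorem lo_closed (hF : X.Lo F) :
    X.db (fun p => X.dz F p / F p) = X.dz fun p => X.db F p / F p := funext fun p => by
  obtain ⟨s1, s2, -, -⟩ := lo_log hF
  have h1 := s1.db_mul hF.1 p
  have h2 := s2.dz_mul hF.1 p
  simp only [div_mul_cancel₀ _ (hF.2.1 _)] at h1 h2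
  have h3 := congrFun hF.1.db_dz p
  have := hF.2.1 p
  refine mul_right_cancel₀ this ?_
  have h4 : X.db (X.dz F) p = _ := h1
  have h5 : X.dz (X.db F) p = _ := h2
  linear_combination h3 - h4 + h5

/-- a trace free closed form which pairs to zero with the loops of norm one is exact -/
theorem prim (hB : BND) (ha : X.Sm a) (hb : X.Sm b) (hc : X.db a = X.dz b) (ta : w.Tf a)
    (tb : w.Tf b) (ga : X.Gr a) (gb : X.Gr b)
    (h : ∀ F : w.Lp, w.I (fun p => X.dz F.1 p / F.1 p) (fun p => X.db F.1 p / F.1 p) a b = 0) :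
    ∃ h, X.Sm h ∧ (∃ B, ∀ p, ‖h p‖ ≤ B) ∧ (X.dz h = fun p => w.m p * a p) ∧
      X.db h = fun p => w.m p * b p := by
  obtain ⟨h, h1, h2, h3⟩ := exa S X (fun p => w.m p * a p) (fun p => w.m p * b p) (w.sm_m.mul ha)
    (w.sm_m.mul hb) (funext fun p => by
      rw [w.sm_m.db_mul ha, w.sm_m.dz_mul hb, (w.d_m p).1, (w.d_m p).2, hc]; ring) fun F hF => by
    rcases isEmpty_or_nonempty S with hS | ⟨⟨p₀⟩⟩
    · exact (congrArg X.int (Subsingleton.elim _ _)).trans int_zero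
    have hn : (n : ℂ) ≠ 0 := Nat.cast_ne_zero.2 ((w.pos p₀).trans_le (w.m_le p₀)).ne'
    have hN := w.lo_N hF
    have hG : X.Lo fun p => F p ^ n / w.N F p :=
      ⟨(hF.1.pow n).div hN.1 hN.2.1, fun p => div_ne_zero (pow_ne_zero _ (hF.2.1 p)) (hN.2.1 p),
        hF.2.2.op hN.2.2 (fun _ x y => x ^ n / y) fun _ => by simp⟩
    have h1 := h ⟨_, hG, fun t x => by
      rcases (w.cl t x).eq_empty_or_nonempty with h | ⟨p, hp⟩
      · simp [h]
      · obtain ⟨rfl, rfl⟩ := w.mem_cl.1 hp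
        have e : ∀ q ∈ w.cl (X.ψ p) (w.ρ p), (F q ^ n / w.N F q) ^ w.m q =
            (F q ^ w.m q) ^ n / w.N F p ^ w.m q := fun q hq => by
          rw [div_pow, ← pow_mul, ← pow_mul, mul_comm, N, N, (w.mem_cl.1 hq).1, (w.mem_cl.1 hq).2]
        rw [Finset.prod_congr rfl e, Finset.prod_div_distrib, Finset.prod_pow,
          Finset.prod_pow_eq_pow_sum]
        have e2 : ∑ q ∈ w.cl (X.ψ p) (w.ρ p), w.m q = n := w.sum p
        rw [e2]
        exact div_self (pow_ne_zero _ (hN.2.1 p))⟩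
    have h2 := w.I_N hF ta tb
    obtain ⟨g1, g2, g3, g4⟩ := lo_log hG
    obtain ⟨n1, n2, n3, n4⟩ := lo_log hN
    have h3 := int_add (w.in_I g1 g2 g3 g4 ha hb) (w.in_I n1 n2 n3 n4 ha hb)
    rw [show X.int _ = 0 from h1, show X.int _ = 0 from h2, add_zero] at h3
    refine mul_left_cancel₀ hn ?_
    rw [← int_mul, mul_zero, ← h3]
    refine congrArg X.int (funext fun p => ?_)
    have e1 := hG.1.dz_mul hN.1 p
    have e2 := hG.1.db_mul hN.1 p
    simp only [div_mul_cancel₀ _ (hN.2.1 _)] at e1 e2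
    have e3 := log_prod (fun f => wd 1 f (X.ψ p)) (wd_const _ _ _) (fun f g hf hg => wd_cmul hf hg 1)
      {()} (fun _ t => F (X.σ p t)) (fun _ => n) (fun _ _ => hF.1.df p) fun _ _ => hF.2.1 _
    have e4 := log_prod (fun f => wb 1 f (X.ψ p)) (wb_const _ _ _) (fun f g hf hg => wb_cmul hf hg 1)
      {()} (fun _ t => F (X.σ p t)) (fun _ => n) (fun _ _ => hF.1.df p) fun _ _ => hF.2.1 _
    simp only [Finset.prod_singleton, Finset.sum_singleton, X.self] at e3 e4
    have e5 : _ = F p ^ n * (n * (X.dz F p / F p)) := e1.symm.trans e3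
    have e6 : _ = F p ^ n * (n * (X.db F p / F p)) := e2.symm.trans e4
    have z1 := hN.2.1 p
    have z2 := pow_ne_zero n (hF.2.1 p)
    have e7 : n * (X.dz F p / F p) = X.dz (fun p => F p ^ n / w.N F p) p / (F p ^ n / w.N F p) +
        X.dz (w.N F) p / w.N F p := by
      refine mul_left_cancel₀ z2 (e5.symm.trans ?_)
      field_simp
    have e8 : n * (X.db F p / F p) = X.db (fun p => F p ^ n / w.N F p) p / (F p ^ n / w.N F p) +
        X.db (w.N F) p / w.N F p := by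
      refine mul_left_cancel₀ z2 (e6.symm.trans ?_)
      field_simp
    linear_combination (w.m p * b p) * e7 - (w.m p * a p) * e8
  have gm : ∀ {a : S → ℂ}, X.Gr a → X.Gr fun p => w.m p * a p := fun ⟨κ, k1, k2⟩ =>
    ⟨κ, k1, k2.mono (Nat.cast_nonneg n) fun p => by
      rw [norm_mul, Complex.norm_natCast]
      exact mul_le_mul_of_nonneg_right (Nat.cast_le.2 (w.m_le p)) (norm_nonneg _)⟩
  exact ⟨h, h1, hB S X h h1 (h2 ▸ gm ga) (h3 ▸ gm gb), h2, h3⟩

/-- the forms attached to a combination of loops -/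
def ea : (w.Lp →₀ ℂ) →ₗ[ℂ] S → ℂ := Finsupp.linearCombination ℂ fun F p => X.dz F.1 p / F.1 p

/-- the forms attached to a combination of loops -/
def eb : (w.Lp →₀ ℂ) →ₗ[ℂ] S → ℂ := Finsupp.linearCombination ℂ fun F p => X.db F.1 p / F.1 p

/-- closed, trace free, compact support -/
structure Gf (a b : S → ℂ) : Prop where
  sa : X.Sm a
  sb : X.Sm b
  ca : X.Cs a 0
  cb : X.Cs b 0
  cl : X.db a = X.dz b
  ta : w.Tf a
  tb : w.Tf b

theorem Tf.add {w : Wt X T n} (ha : w.Tf a) (hb : w.Tf b) : w.Tf fun p => a p + b p :=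
  fun t x => by simp only [mul_add, Finset.sum_add_distrib, ha t x, hb t x, add_zero]

theorem Tf.mul {w : Wt X T n} (ha : w.Tf a) (c : ℂ) : w.Tf fun p => c * a p := fun t x => by
  simp only [mul_left_comm _ c, ← Finset.mul_sum, ha t x, mul_zero]

theorem gf (v : w.Lp →₀ ℂ) : w.Gf (w.ea v) (w.eb v) := by
  induction v using Finsupp.induction_linear with
  | zero =>
    rw [map_zero, map_zero]
    exact ⟨sm_const 0, sm_const 0, cs_const 0, cs_const 0,
      funext fun p => (db_const 0 p).trans (dz_const 0 p).symm, fun _ _ => by simp,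
      fun _ _ => by simp⟩
  | add u v hu hv =>
    rw [map_add, map_add]
    exact ⟨hu.sa.add hv.sa, hu.sb.add hv.sb, hu.ca.op hv.ca (fun _ x y => x + y) fun _ => add_zero _,
      hu.cb.op hv.cb (fun _ x y => x + y) fun _ => add_zero _,
      funext fun p => (hu.sa.db_add hv.sa p).trans
        (by rw [hu.cl, hv.cl]; exact (hu.sb.dz_add hv.sb p).symm), hu.ta.add hv.ta, hu.tb.add hv.tb⟩
  | single F c =>
    obtain ⟨s1, s2, s3, s4⟩ := lo_log F.2.1
    rw [ea, eb, Finsupp.linearCombination_single, Finsupp.linearCombination_single]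
    exact ⟨(sm_const c).mul s1, (sm_const c).mul s2, s3.op1 (fun _ x => c * x) fun _ => mul_zero _,
      s4.op1 (fun _ x => c * x) fun _ => mul_zero _,
      funext fun p => ((sm_const c).db_mul s1 p).trans (Eq.trans (by
        rw [lo_closed F.2.1, db_const, dz_const, zero_mul, zero_mul])
        ((sm_const c).dz_mul s2 p).symm), (w.tf_log F).1.mul c, (w.tf_log F).2.mul c⟩

theorem I_skew : w.I a b a' b' = -w.I a' b' a b := by
  rw [I, I, ← int_neg]
  exact congrArg X.int (funext fun p => by ring)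

theorem I_add (u v : w.Lp →₀ ℂ) (ha : X.Sm a) (hb : X.Sm b) :
    w.I (w.ea (u + v)) (w.eb (u + v)) a b =
      w.I (w.ea u) (w.eb u) a b + w.I (w.ea v) (w.eb v) a b := by
  have hu := w.gf u
  have hv := w.gf v
  rw [I, I, I, ← int_add (w.in_I hu.sa hu.sb hu.ca hu.cb ha hb)
    (w.in_I hv.sa hv.sb hv.ca hv.cb ha hb)]
  exact congrArg X.int (funext fun p => by simp only [map_add, Pi.add_apply]; ring)

theorem I_smul (c : ℂ) (v : w.Lp →₀ ℂ) :
    w.I (w.ea (c • v)) (w.eb (c • v)) a b = c * w.I (w.ea v) (w.eb v) a b := by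
  rw [I, I, ← int_mul]
  exact congrArg X.int (funext fun p => by simp only [map_smul, Pi.smul_apply, smul_eq_mul]; ring)

theorem I_sub (v : w.Lp →₀ ℂ) (ha : X.Sm a) (hb : X.Sm b) (ha' : X.Sm a') (hb' : X.Sm b') :
    w.I (w.ea v) (w.eb v) (fun p => a p - a' p) (fun p => b p - b' p) =
      w.I (w.ea v) (w.eb v) a b - w.I (w.ea v) (w.eb v) a' b' := by
  have hv := w.gf v
  rw [I, I, I, ← int_sub (w.in_I hv.sa hv.sb hv.ca hv.cb ha hb)
    (w.in_I hv.sa hv.sb hv.ca hv.cb ha' hb')]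
  exact congrArg X.int (funext fun p => by ring)

theorem ex2_eq (u v : w.Lp →₀ ℂ) : ex2 w.Q u v = w.I (w.ea u) (w.eb u) (w.ea v) (w.eb v) := by
  have z : ∀ a b, w.I (w.ea 0) (w.eb 0) a b = 0 := fun a b => by
    simpa using w.I_smul (a := a) (b := b) 0 0
  induction u using Finsupp.induction_linear with
  | zero => rw [z, map_zero, LinearMap.zero_apply]
  | add a b ha hb => rw [w.I_add _ _ (w.gf v).sa (w.gf v).sb, map_add, LinearMap.add_apply, ha, hb]
  | single F c =>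
    induction v using Finsupp.induction_linear with
    | zero => rw [w.I_skew, z, map_zero, neg_zero]
    | add a b ha hb =>
      rw [w.I_skew, w.I_add _ _ (w.gf _).sa (w.gf _).sb, map_add, ha, hb, neg_add, ← w.I_skew,
        ← w.I_skew]
    | single G d =>
      rw [ex2_single, Q, I, ← int_mul]
      refine congrArg X.int (funext fun p => ?_)
      simp only [ea, eb, Finsupp.linearCombination_single, Pi.smul_apply, smul_eq_mul]
      ring

end Wt

open Cov Wt in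
theorem rank (hR : RES) (hB : BND) : RANK := by
  intro S T X n w W _ _ _ u hu
  have s0 : X.Sm fun _ => 0 := sm_const 0
  let B : (w.Lp →₀ ℂ) →ₗ[ℂ] W →ₗ[ℂ] ℂ := LinearMap.mk₂ ℂ
    (fun v α => w.I (w.ea v) (w.eb v) (u α) fun _ => 0)
    (fun a b α => w.I_add a b (hu.hl α).sm s0) (fun c v α => w.I_smul c v)
    (fun v α β => by
      have h := w.I_sub v (hu.hl (α + β)).sm s0 (hu.hl β).sm s0
      simp only [map_add, Pi.add_apply, add_sub_cancel_right, sub_zero] at h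
      rw [map_add]
      exact (sub_eq_iff_eq_add.1 h.symm))
    fun c v α => by
      rw [I, smul_eq_mul, I, ← int_mul]
      exact congrArg X.int (funext fun p => by
        simp only [map_smul, Pi.smul_apply, smul_eq_mul]; ring)
  have key : ∀ α v, (∀ v', B v' α = ex2 w.Q v' v) → ∃ h, X.Sm h ∧ (∃ B, ∀ p, ‖h p‖ ≤ B) ∧
      (X.dz h = fun p => w.m p * (u α p - w.ea v p)) ∧
        X.db h = fun p => w.m p * (0 - w.eb v p) := fun α v h => by
    have g := w.gf v
    refine w.prim hB ((hu.hl α).sm.sub g.sa) (s0.sub g.sb) (funext fun p => ?_) ?_ ?_ ?_ ?_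
      fun F => ?_
    · rw [(hu.hl α).sm.db_sub g.sa, s0.dz_sub g.sb, (hu.hl α).db, dz_const, g.cl]
    · simpa only [neg_one_mul, sub_eq_add_neg] using Tf.add (hu.tr α) (g.ta.mul (-1))
    · simpa only [neg_one_mul, zero_sub] using g.tb.mul (-1)
    · obtain ⟨κ, k1, k2⟩ := hu.gr α
      exact ⟨κ, k1, by
        simpa only [sub_eq_add_neg] using k2.add_cs (g.ca.op1 (fun _ x => -x) fun _ => neg_zero)⟩
    · exact (g.cb.op1 (fun _ x => 0 - x) fun _ => sub_zero _).gr
    · have h1 := w.I_sub (Finsupp.single F 1) (hu.hl α).sm s0 g.sa g.sb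
      rw [← w.ex2_eq, ← h, show B (Finsupp.single F 1) α = w.I _ _ (u α) fun _ => 0 from rfl,
        sub_self, ea, eb, Finsupp.linearCombination_single, Finsupp.linearCombination_single,
        one_smul, one_smul] at h1
      exact h1
  refine la (ex2 w.Q) (fun v v' => by rw [w.ex2_eq, w.ex2_eq, w.I_skew]) B (fun α h => ?_)
    fun α α' v h => ?_
  · obtain ⟨h, h1, ⟨b, h2⟩, h3, -⟩ := key α 0 fun v' => by rw [h, map_zero]
    have e : ∀ p, X.db (fun p => conj (h p)) p * u α p = w.m p * (conj (u α p) * u α p) := fun p => by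
      rw [h1.db_conj, h3]
      simp [mul_assoc]
    have h4 := (hR S X (fun p => conj (h p)) (u α) h1.conj ⟨b, fun p => by simpa using h2 p⟩
      (hu.hl α) (hu.gr α)).2 fun p => by
        rw [e]
        exact mul_nonneg (Nat.cast_nonneg _) (star_mul_self_nonneg _)
    refine hu.inj (funext fun p => ?_)
    have h5 := h4 p
    rw [e] at h5
    simpa [(w.pos p).ne'] using h5
  · obtain ⟨h, h1, h2, -, h4⟩ := key α v h
    have h5 := (hR S X h (u α') h1 h2 (hu.hl α') (hu.gr α')).1 (by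
      rw [h4]
      exact (w.gf v).cb.op1 (fun p x => w.m p * (0 - x) * u α' p) fun _ => by simp)
    rw [← h5, h4]
    exact congrArg X.int (funext fun p => by ring)

end Vale.Agent.P275DL
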